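import Vale.Agent.P073.ConicalStrata

/-!
# P073: conical maps: dense regular stratum, finitely many derivatives, local Lipschitz bound,
negligible singular set
-/

open Set Metric Topology Filter MeasureTheory

namespace P073

variable {E F G : Type*} [NormedAddCommGroup E] [NormedSpace ℝ E]
  [NormedAddCommGroup F] [NormedSpace ℝ F] [NormedAddCommGroup G] [NormedSpace ℝ G]

section near

variable {h : E → F} {x : E} {r : ℝ}

/-- on the linearity space of `x` the nearby tangent cones agree with the one at `x` -/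
theorem tcone_near_eq_of_mem
    (H : ∀ v : E, ‖v‖ ≤ r → h (x + v) = h x + tcone h x v) {v : E} (hv : ‖v‖ < r)
    (Hv : ConicalAt h (x + v)) {w : E} (hw : w ∈ linSpace h x) :
    tcone h (x + v) w = tcone h x w := by
  obtain ⟨t, ht, a3⟩ := eventually_unique (tcone_add_eventually H hv Hv w)
  rw [hw] at a3
  exact (smul_right_injective F ht.ne' (add_left_cancel a3)).symm

/-- the direction of `v` itself -/
theorem tcone_near_self (Hx : ConicalAt h x)
    (H : ∀ v : E, ‖v‖ ≤ r → h (x + v) = h x + tcone h x v) {v : E} (hv : ‖v‖ < r)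
    (Hv : ConicalAt h (x + v)) : tcone h (x + v) v = tcone h x v := by
  obtain ⟨t, ht, a3⟩ := eventually_unique (tcone_add_eventually H hv Hv v)
  have h1 : v + t • v = (1 + t) • v := by module
  rw [h1, Hx.tcone_smul (by linarith)] at a3
  have h2 : t • tcone h x v = t • tcone h (x + v) v := by
    have : tcone h x v + t • tcone h x v = tcone h x v + t • tcone h (x + v) v := by
      rw [← a3]; module
    exact add_left_cancel this
  exact (smul_right_injective F ht.ne' h2).symm

/-- scaling: the tangent cone is constant along open rays -/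
theorem tcone_near_scale (Hx : ConicalAt h x)
    (H : ∀ v : E, ‖v‖ ≤ r → h (x + v) = h x + tcone h x v) {v : E} (hv : ‖v‖ < r)
    (Hv : ConicalAt h (x + v)) {t : ℝ} (ht : t ∈ Ioc (0:ℝ) 1) (Htv : ConicalAt h (x + t • v)) :
    tcone h (x + t • v) = tcone h (x + v) := by
  funext w
  have htv : ‖t • v‖ < r := by
    rw [norm_smul, Real.norm_of_nonneg ht.1.le]
    calc t * ‖v‖ ≤ 1 * ‖v‖ := by gcongr; exact ht.2
      _ < r := by rw [one_mul]; exact hv
  have e1 := tcone_add_eventually H htv Htv w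
  have e2 : ∀ᶠ s : ℝ in 𝓝[>] 0, tcone h x (v + (s / t) • w) = tcone h x v +
      (s / t) • tcone h (x + v) w := by
    have hlim : Tendsto (fun s : ℝ => s / t) (𝓝[>] 0) (𝓝[>] 0) := by
      apply tendsto_nhdsWithin_of_tendsto_nhds_of_eventually_within
      · have hc : Continuous (fun s : ℝ => s / t) := by fun_prop
        have := hc.tendsto 0
        simp only [zero_div] at this
        exact this.mono_left nhdsWithin_le_nhds
      · filter_upwards [self_mem_nhdsWithin] with s hs
        exact div_pos hs ht.1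
    exact hlim.eventually (tcone_add_eventually H hv Hv w)
  obtain ⟨s, hs, a1, a2⟩ := eventually_unique (e1.and e2)
  have b1 : t • v + s • w = t • (v + (s / t) • w) := by
    rw [smul_add, smul_smul, mul_div_cancel₀ _ ht.1.ne']
  rw [b1, Hx.tcone_smul ht.1.le, a2, smul_add, smul_smul, mul_div_cancel₀ _ ht.1.ne',
    Hx.tcone_smul ht.1.le] at a1
  exact (smul_right_injective F hs.ne' (add_left_cancel a1)).symm

/-- translation invariance in the directions of the linearity space -/
theorem tcone_near_translate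
    (H : ∀ v : E, ‖v‖ ≤ r → h (x + v) = h x + tcone h x v) {u w : E} (hu : u ∈ linSpace h x)
    (hw : ‖w‖ < r) (huw : ‖w + u‖ < r) (Hw : ConicalAt h (x + w))
    (Huw : ConicalAt h (x + (w + u))) :
    tcone h (x + (w + u)) = tcone h (x + w) := by
  funext z
  obtain ⟨s, hs, a1, a2⟩ := eventually_unique
    ((tcone_add_eventually H huw Huw z).and (tcone_add_eventually H hw Hw z))
  have b1 : w + u + s • z = (w + s • z) + u := by abel
  rw [b1, tcone_add_of_mem hu, a2, tcone_add_of_mem hu] at a1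
  have : s • tcone h (x + w) z = s • tcone h (x + (w + u)) z := by
    have h3 : tcone h x w + tcone h x u + s • tcone h (x + w) z =
        tcone h x w + tcone h x u + s • tcone h (x + (w + u)) z := by
      rw [← a1]; abel
    exact add_left_cancel h3
  exact (smul_right_injective F hs.ne' this).symm

end near

variable {h : E → F} {Ω : Set E}

/-- points where `h` is locally affine are dense -/
theorem exists_top_near [FiniteDimensional ℝ E] (hΩ : IsOpen Ω) (H : ConicalOn h Ω) :
    ∀ (k : ℕ) (x : E), x ∈ Ω → Module.finrank ℝ E ≤ Module.finrank ℝ (linSpace h x) + k →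
      ∀ ε > 0, ∃ y ∈ Ω, dist y x < ε ∧ linSpace h y = ⊤ := by
  intro k
  induction k with
  | zero =>
    intro x hx hk ε hε
    refine ⟨x, hx, by simpa using hε, ?_⟩
    exact Submodule.eq_top_of_finrank_eq (le_antisymm (Submodule.finrank_le _) (by simpa using hk))
  | succ k ih =>
    intro x hx hk ε hε
    by_cases htop : linSpace h x = ⊤
    · exact ⟨x, hx, by simpa using hε, htop⟩
    obtain ⟨v, -, hv⟩ := SetLike.exists_of_lt (lt_top_iff_ne_top.2 htop)
    obtain ⟨r, hr, hb, -, -, hlt, -⟩ := exists_stratum_nhd hΩ H hx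
    have hv0 : v ≠ 0 := fun h0 => hv (h0 ▸ Submodule.zero_mem _)
    have hvn : 0 < ‖v‖ := norm_pos_iff.2 hv0
    set c : ℝ := min (r / 2) (ε / 2) / ‖v‖ with hc
    have hmin : 0 < min (r / 2) (ε / 2) := lt_min (by linarith) (by linarith)
    have hc0 : 0 < c := div_pos hmin hvn
    have hcv : ‖c • v‖ = min (r / 2) (ε / 2) := by
      rw [norm_smul, Real.norm_of_nonneg hc0.le, hc, div_mul_cancel₀ _ hvn.ne']
    have h1 : ‖c • v‖ < r := by rw [hcv]; linarith [min_le_left (r / 2) (ε / 2)]
    have h2 : c • v ∉ linSpace h x := fun hm => hv ((Submodule.smul_mem_iff _ hc0.ne').1 hm)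
    have h3 := hlt _ h1 h2
    have h4 : x + c • v ∈ Ω := hb (by
      rw [mem_ball, dist_eq_norm, add_sub_cancel_left]; exact h1)
    obtain ⟨y, hy, hyd, hytop⟩ := ih (x + c • v) h4 (by omega) (ε / 2) (by linarith)
    refine ⟨y, hy, ?_, hytop⟩
    calc dist y x ≤ dist y (x + c • v) + dist (x + c • v) x := dist_triangle _ _ _
      _ < ε / 2 + ε / 2 := by
        have : dist (x + c • v) x ≤ ε / 2 := by
          rw [dist_eq_norm, add_sub_cancel_left, hcv]; exact min_le_right _ _
        linarith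
      _ = ε := by ring

theorem exists_top_near' [FiniteDimensional ℝ E] (hΩ : IsOpen Ω) (H : ConicalOn h Ω) {x : E}
    (hx : x ∈ Ω) {ε : ℝ} (hε : 0 < ε) : ∃ y ∈ Ω, dist y x < ε ∧ linSpace h y = ⊤ :=
  exists_top_near hΩ H (Module.finrank ℝ E) x hx (by omega) ε hε

/-- **finitely many derivatives near each point** -/
theorem exists_finite_derivs [FiniteDimensional ℝ E] (hΩ : IsOpen Ω) (H : ConicalOn h Ω) :
    ∀ (k : ℕ) (x : E), x ∈ Ω → Module.finrank ℝ E ≤ Module.finrank ℝ (linSpace h x) + k →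
      ∃ δ > 0, ball x δ ⊆ Ω ∧ ∃ S : Set (E → F), S.Finite ∧
        ∀ y ∈ ball x δ, linSpace h y = ⊤ → tcone h y ∈ S := by
  intro k
  induction k with
  | zero =>
    intro x hx hk
    have htop : linSpace h x = ⊤ :=
      Submodule.eq_top_of_finrank_eq (le_antisymm (Submodule.finrank_le _) (by simpa using hk))
    obtain ⟨r, hr, hb, -, hmem, -, -⟩ := exists_stratum_nhd hΩ H hx
    refine ⟨r, hr, hb, {tcone h x}, finite_singleton _, fun y hy _ => ?_⟩
    rw [mem_ball, dist_eq_norm] at hy
    have := (hmem (y - x) hy (htop ▸ Submodule.mem_top)).1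
    rw [add_sub_cancel] at this
    exact this
  | succ k ih =>
    intro x hx hk
    by_cases htop : linSpace h x = ⊤
    · obtain ⟨r, hr, hb, -, hmem, -, -⟩ := exists_stratum_nhd hΩ H hx
      refine ⟨r, hr, hb, {tcone h x}, finite_singleton _, fun y hy _ => ?_⟩
      rw [mem_ball, dist_eq_norm] at hy
      have := (hmem (y - x) hy (htop ▸ Submodule.mem_top)).1
      rw [add_sub_cancel] at this
      exact this
    obtain ⟨r, hr, hb, hform, hmem, hlt, hle⟩ := exists_stratum_nhd hΩ H hx
    have Hx := H.conicalAt hΩ hx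
    have Hnear : ∀ v : E, ‖v‖ < r → ConicalAt h (x + v) := fun v hv =>
      H.conicalAt hΩ (hb (by rw [mem_ball, dist_eq_norm, add_sub_cancel_left]; exact hv))
    obtain ⟨W, hW⟩ := Submodule.exists_isCompl (linSpace h x)
    -- compact set of transversal directions
    set ρ := r / 2 with hρ
    have hρ0 : 0 < ρ := by positivity
    let K : Set E := {w | w ∈ W ∧ ‖w‖ = ρ}
    have hK : IsCompact K := by
      have h1 : K = (W : Set E) ∩ sphere 0 ρ := by
        ext w; simp [K]
      rw [h1]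
      exact (isCompact_sphere _ _).inter_left (Submodule.closed_of_finiteDimensional W)
    have hKnot : ∀ w ∈ K, w ∉ linSpace h x := by
      rintro w ⟨hwW, hwn⟩ hwV
      have : w ∈ linSpace h x ⊓ W := ⟨hwV, hwW⟩
      rw [hW.inf_eq_bot, Submodule.mem_bot] at this
      rw [this, norm_zero] at hwn
      exact hρ0.ne hwn
    have hloc : ∀ w ∈ K, ∃ δ > 0, ∃ S : Set (E → F), S.Finite ∧
        ∀ y ∈ ball (x + w) δ, linSpace h y = ⊤ → tcone h y ∈ S := by
      intro w hw
      have hwr : ‖w‖ < r := by rw [hw.2]; linarith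
      have h1 := hlt w hwr (hKnot w hw)
      have h2 : x + w ∈ Ω := hb (by rw [mem_ball, dist_eq_norm, add_sub_cancel_left]; exact hwr)
      obtain ⟨δ, hδ, -, S, hS, hS'⟩ := ih (x + w) h2 (by omega)
      exact ⟨δ, hδ, S, hS, hS'⟩
    choose! δ hδ S hS hS' using hloc
    obtain ⟨t, htK, ht⟩ := hK.elim_nhds_subcover (fun w => ball w (δ w))
      (fun w hw => ball_mem_nhds w (hδ w hw))
    -- continuity of the projection to W
    obtain ⟨P, hPW, hPV⟩ : ∃ P : E →ₗ[ℝ] E, (∀ v, P v ∈ W) ∧ ∀ v, v - P v ∈ linSpace h x := by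
      refine ⟨W.projection (linSpace h x) hW.symm, fun v => ?_, fun v => ?_⟩
      · rw [← Submodule.coe_projectionOnto_apply]; exact Subtype.coe_prop _
      · rw [← Submodule.projectionOnto_apply_eq_zero_iff hW.symm, map_sub,
          Submodule.projectionOnto_projection, sub_self]
    have hproj : Continuous P := LinearMap.continuous_of_finiteDimensional _
    have hproj0 : ∀ᶠ v : E in 𝓝 0, ‖P v‖ < ρ := by
      have hc : Continuous (fun v : E => ‖P v‖) := by fun_prop
      exact (hc.continuousAt (x := (0:E))).eventually_lt_const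
        (show ‖P 0‖ < ρ by rw [map_zero, norm_zero]; exact hρ0)
    obtain ⟨δ₁, hδ₁, hb₁⟩ := Metric.eventually_nhds_iff_ball.1 hproj0
    refine ⟨min δ₁ ρ, lt_min hδ₁ hρ0, ?_, ⋃ w ∈ t, S w,
      t.finite_toSet.biUnion fun w hw => hS w (htK w hw), ?_⟩
    · refine (ball_subset_ball ?_).trans hb
      exact (min_le_right _ _).trans (by rw [hρ]; linarith)
    intro y hy hytop
    rw [mem_ball, dist_eq_norm] at hy
    set v := y - x with hv
    have hyv : x + v = y := by rw [hv]; abel
    set w : E := P v with hw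
    have hwW : w ∈ W := hPW v
    have hu : v - w ∈ linSpace h x := hPV v
    have hwlt : ‖w‖ < ρ := hb₁ v (by
      rw [mem_ball_zero_iff]; exact hy.trans_le (min_le_left _ _))
    have hvr : ‖v‖ < r := by
      have := hy.trans_le (min_le_right _ _)
      rw [hρ] at this; linarith
    have hw0 : w ≠ 0 := by
      intro h0
      rw [h0, sub_zero] at hu
      have := (hmem v hvr hu).2
      rw [hyv, hytop] at this
      exact htop this.symm
    have hwn : 0 < ‖w‖ := norm_pos_iff.2 hw0
    have hwr : ‖w‖ < r := by linarith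
    have e1 : tcone h y = tcone h (x + w) := by
      have := tcone_near_translate hform hu (w := w) hwr (by
        rw [add_sub_cancel]; exact hvr) (Hnear w hwr) (by rw [add_sub_cancel]; exact Hnear v hvr)
      rw [add_sub_cancel, hyv] at this
      exact this
    set w' := (ρ / ‖w‖) • w with hw'
    have hw'K : w' ∈ K := by
      refine ⟨W.smul_mem _ hwW, ?_⟩
      rw [hw', norm_smul, Real.norm_of_nonneg (by positivity), div_mul_cancel₀ _ hwn.ne']
    have hw'r : ‖w'‖ < r := by rw [hw'K.2, hρ]; linarith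
    have hww' : w = (‖w‖ / ρ) • w' := by
      rw [hw', smul_smul, div_mul_div_comm, mul_comm ρ, div_self (by positivity), one_smul]
    have e2 : tcone h (x + w) = tcone h (x + w') := by
      have hmemIoc : ‖w‖ / ρ ∈ Ioc (0:ℝ) 1 := ⟨by positivity, by
        rw [div_le_one hρ0]; exact hwlt.le⟩
      have := tcone_near_scale Hx hform hw'r (Hnear _ hw'r) hmemIoc (by
        rw [← hww']; exact Hnear _ hwr)
      rwa [← hww'] at this
    have e3 : linSpace h (x + w') = ⊤ := by
      have : linSpace h (x + w') = linSpace h y := by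
        ext z; rw [mem_linSpace, mem_linSpace, ← e2, ← e1]
      rw [this, hytop]
    obtain ⟨w₀, hw₀t, hw₀⟩ := mem_iUnion₂.1 (ht hw'K)
    rw [e1, e2]
    refine mem_biUnion hw₀t (hS' w₀ (htK w₀ hw₀t) _ ?_ e3)
    rw [mem_ball, dist_eq_norm] at hw₀ ⊢
    rwa [add_sub_add_left_eq_sub]

theorem exists_finite_derivs' [FiniteDimensional ℝ E] (hΩ : IsOpen Ω) (H : ConicalOn h Ω) {x : E}
    (hx : x ∈ Ω) : ∃ δ > 0, ball x δ ⊆ Ω ∧ ∃ S : Set (E →ₗ[ℝ] F), S.Finite ∧
        ∀ y ∈ ball x δ, linSpace h y = ⊤ → ∃ A ∈ S, ∀ v, tcone h y v = A v := by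
  obtain ⟨δ, hδ, hb, S, hS, hS'⟩ := exists_finite_derivs hΩ H (Module.finrank ℝ E) x hx (by omega)
  refine ⟨δ, hδ, hb, {A : E →ₗ[ℝ] F | (A : E → F) ∈ S}, ?_, ?_⟩
  · exact hS.preimage (DFunLike.coe_injective.injOn)
  · intro y hy hytop
    obtain ⟨L, hL⟩ := tcone_isLinear_of_finrank_eq (h := h) (x := y) (by
      rw [hytop, finrank_top])
    refine ⟨L, ?_, hL⟩
    have := hS' y hy hytop
    rw [mem_ofPred_eq]
    convert this using 1
    funext v; exact (hL v).symm

/-- the tangent cones are uniformly bounded near each point -/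
theorem exists_tcone_bound [FiniteDimensional ℝ E] (hΩ : IsOpen Ω) (H : ConicalOn h Ω) {x : E}
    (hx : x ∈ Ω) : ∃ δ > 0, ball x δ ⊆ Ω ∧ ∃ M : ℝ, 0 ≤ M ∧
        ∀ y ∈ ball x δ, ∀ w, ‖tcone h y w‖ ≤ M * ‖w‖ := by
  obtain ⟨δ, hδ, hb, S, hS, hS'⟩ := exists_finite_derivs' hΩ H hx
  -- bound for the finitely many linear maps
  obtain ⟨M, hM0, hM⟩ : ∃ M : ℝ, 0 ≤ M ∧ ∀ A ∈ S, ∀ w, ‖A w‖ ≤ M * ‖w‖ := by
    have h1 : BddAbove ((fun A : E →ₗ[ℝ] F => ‖(LinearMap.toContinuousLinearMap A)‖) '' S) :=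
      (hS.image _).bddAbove
    obtain ⟨M, hM⟩ := h1
    refine ⟨max M 0, le_max_right _ _, fun A hA w => ?_⟩
    have h2 : ‖(LinearMap.toContinuousLinearMap A)‖ ≤ M := hM ⟨A, hA, rfl⟩
    calc ‖A w‖ = ‖(LinearMap.toContinuousLinearMap A) w‖ := rfl
      _ ≤ ‖(LinearMap.toContinuousLinearMap A)‖ * ‖w‖ := ContinuousLinearMap.le_opNorm _ _
      _ ≤ max M 0 * ‖w‖ := by gcongr; exact h2.trans (le_max_left _ _)
  refine ⟨δ, hδ, hb, M, hM0, fun p hp w => ?_⟩
  -- step 1: p' = p + s w
  have hpΩ := hb hp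
  obtain ⟨r, hr, hbr, hform, hmem, hlt, hle⟩ := exists_stratum_nhd hΩ H hpΩ
  have Hp := H.conicalAt hΩ hpΩ
  have hopen : IsOpen (ball x δ) := isOpen_ball
  obtain ⟨η, hη, hbη⟩ := Metric.isOpen_iff.1 hopen p hp
  obtain ⟨s, hs, hsw⟩ : ∃ s : ℝ, s > 0 ∧ ‖s • w‖ < min r η := by
    refine ⟨min r η / (2 * (‖w‖ + 1)), by positivity, ?_⟩
    have hmin : 0 < min r η := lt_min hr hη
    rw [norm_smul, Real.norm_of_nonneg (by positivity)]
    have : min r η / (2 * (‖w‖ + 1)) * ‖w‖ = min r η * (‖w‖ / (2 * (‖w‖ + 1))) := by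
      field_simp
    rw [this]
    have h2 : ‖w‖ / (2 * (‖w‖ + 1)) < 1 := by
      rw [div_lt_one (by positivity)]
      linarith [norm_nonneg w]
    nlinarith
  have hsr : ‖s • w‖ < r := hsw.trans_le (min_le_left _ _)
  have hp'Ω : p + s • w ∈ Ω := hbr (by
    rw [mem_ball, dist_eq_norm, add_sub_cancel_left]; exact hsr)
  have Hp' := H.conicalAt hΩ hp'Ω
  have hp'ball : p + s • w ∈ ball x δ := hbη (by
    rw [mem_ball, dist_eq_norm, add_sub_cancel_left]; exact hsw.trans_le (min_le_right _ _))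
  have e1 : tcone h (p + s • w) w = tcone h p w := by
    have h1 := tcone_near_self Hp hform hsr Hp'
    rw [Hp'.tcone_smul hs.le, Hp.tcone_smul hs.le] at h1
    exact smul_right_injective F hs.ne' h1
  have e2 : w ∈ linSpace h (p + s • w) := by
    have := (hle _ hsr).2
    exact (Submodule.smul_mem_iff _ hs.ne').1 this
  -- step 2: a regular point near p'
  obtain ⟨r', hr', hbr', hform', -, -, -⟩ := exists_stratum_nhd hΩ H hp'Ω
  obtain ⟨η', hη', hbη'⟩ := Metric.isOpen_iff.1 hopen _ hp'ball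
  obtain ⟨q, hq, hqd, hqtop⟩ := exists_top_near' hΩ H hp'Ω (lt_min hr' hη')
  rw [dist_eq_norm] at hqd
  have hqball : q ∈ ball x δ := hbη' (by
    rw [mem_ball, dist_eq_norm]; exact hqd.trans_le (min_le_right _ _))
  have e3 : tcone h q w = tcone h (p + s • w) w := by
    have := tcone_near_eq_of_mem hform' (hqd.trans_le (min_le_left _ _)) (by
      rw [add_sub_cancel]; exact H.conicalAt hΩ hq) e2
    rwa [add_sub_cancel] at this
  obtain ⟨A, hA, hAq⟩ := hS' q hqball hqtop
  rw [← e1, ← e3, hAq]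
  exact hM A hA w

/-- **conical continuous maps are locally Lipschitz** -/
theorem exists_lipschitz_near [FiniteDimensional ℝ E] (hΩ : IsOpen Ω) (H : ConicalOn h Ω)
    (hc : ContinuousOn h Ω) {x : E} (hx : x ∈ Ω) :
    ∃ δ > 0, ball x δ ⊆ Ω ∧ ∃ M : NNReal, LipschitzOnWith M h (ball x δ) := by
  obtain ⟨δ, hδ, hb, M, hM0, hM⟩ := exists_tcone_bound hΩ H hx
  refine ⟨δ, hδ, hb, ⟨M, hM0⟩, LipschitzOnWith.of_dist_le_mul fun y hy z hz => ?_⟩
  -- the map along the segment
  have hseg : ∀ t ∈ Icc (0:ℝ) 1, z + t • (y - z) ∈ ball x δ := fun t ht =>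
    (convex_ball x δ).add_smul_sub_mem hz hy ht
  have hcont : ContinuousOn (fun t : ℝ => h (z + t • (y - z))) (Icc 0 1) := by
    refine (hc.mono hb).comp (by fun_prop) hseg
  have hder : ∀ t ∈ Ico (0:ℝ) 1, HasDerivWithinAt (fun t : ℝ => h (z + t • (y - z)))
      (tcone h (z + t • (y - z)) (y - z)) (Ici t) t := by
    intro t ht
    have hpΩ := hb (hseg t ⟨ht.1, ht.2.le⟩)
    obtain ⟨r, hr, hform⟩ := (H.conicalAt hΩ hpΩ).exists_tcone
    have Hp := H.conicalAt hΩ hpΩ
    have hev : ∀ᶠ s : ℝ in 𝓝[Ici t] t, h (z + s • (y - z)) =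
        h (z + t • (y - z)) + (s - t) • tcone h (z + t • (y - z)) (y - z) := by
      have hc2 : Continuous (fun s : ℝ => ‖(s - t) • (y - z)‖) := by fun_prop
      have h1 : ∀ᶠ s : ℝ in 𝓝[Ici t] t, ‖(s - t) • (y - z)‖ < r :=
        (hc2.continuousAt.eventually_lt_const (by simpa using hr)).filter_mono nhdsWithin_le_nhds
      filter_upwards [h1, self_mem_nhdsWithin] with s hs hst
      have h2 := hform _ hs.le
      rw [Hp.tcone_smul (sub_nonneg.2 hst)] at h2
      rw [← h2]
      congr 1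
      module
    have hlin : HasDerivWithinAt (fun s : ℝ => h (z + t • (y - z)) +
        (s - t) • tcone h (z + t • (y - z)) (y - z)) (tcone h (z + t • (y - z)) (y - z))
        (Ici t) t := by
      have h1 : HasDerivAt (fun s : ℝ => s - t) 1 t := (hasDerivAt_id t).sub_const t
      have h2 := (h1.smul_const (tcone h (z + t • (y - z)) (y - z))).const_add
        (h (z + t • (y - z)))
      rw [one_smul] at h2
      exact h2.hasDerivWithinAt
    exact hlin.congr_of_eventuallyEq hev (by simp)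
  have hbound : ∀ t ∈ Ico (0:ℝ) 1, ‖tcone h (z + t • (y - z)) (y - z)‖ ≤ M * ‖y - z‖ :=
    fun t ht => hM _ (hseg t ⟨ht.1, ht.2.le⟩) _
  have := norm_image_sub_le_of_norm_deriv_right_le_segment hcont hder hbound 1
    ⟨zero_le_one, le_refl _⟩
  simp only [one_smul, add_sub_cancel, zero_smul, add_zero, sub_zero, mul_one] at this
  rw [dist_eq_norm, dist_eq_norm]
  exact this

/-- at a point of the top stratum the map is affine nearby -/
theorem eventually_affine_of_top {x : E} (Hx : ConicalAt h x) (htop : linSpace h x = ⊤) :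
    ∃ L : E →ₗ[ℝ] F, (∀ v, tcone h x v = L v) ∧ ∀ᶠ y in 𝓝 x, h y = h x + L (y - x) := by
  have hmem : ∀ v, v ∈ linSpace h x := fun v => htop ▸ Submodule.mem_top
  let L : E →ₗ[ℝ] F :=
    { toFun := tcone h x
      map_add' := fun v w => tcone_add_of_mem (hmem w) v
      map_smul' := fun c v => tcone_smul_of_mem (hmem v) c }
  refine ⟨L, fun v => rfl, ?_⟩
  obtain ⟨r, hr, hform⟩ := Hx.exists_tcone
  filter_upwards [ball_mem_nhds x hr] with y hy
  rw [mem_ball, dist_eq_norm] at hy
  have := hform (y - x) hy.le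
  rw [add_sub_cancel] at this
  exact this

theorem differentiableAt_of_top [FiniteDimensional ℝ E] {x : E} (Hx : ConicalAt h x)
    (htop : linSpace h x = ⊤) : DifferentiableAt ℝ h x := by
  obtain ⟨L, -, hL⟩ := eventually_affine_of_top Hx htop
  have h1 : DifferentiableAt ℝ (fun y => h x + (LinearMap.toContinuousLinearMap L) (y - x)) x := by
    fun_prop
  exact h1.congr_of_eventuallyEq (hL.mono fun y hy => hy)

theorem contDiffAt_of_top [FiniteDimensional ℝ E] {x : E} (Hx : ConicalAt h x)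
    (htop : linSpace h x = ⊤) {n : WithTop ℕ∞} : ContDiffAt ℝ n h x := by
  obtain ⟨L, -, hL⟩ := eventually_affine_of_top Hx htop
  have h1 : ContDiffAt ℝ n (fun y => h x + (LinearMap.toContinuousLinearMap L) (y - x)) x := by
    fun_prop
  exact h1.congr_of_eventuallyEq (hL.mono fun y hy => hy)

theorem top_of_differentiableAt {x : E} (Hx : ConicalAt h x) (hd : DifferentiableAt ℝ h x) :
    linSpace h x = ⊤ := by
  -- the tangent cone is the derivative
  have key : ∀ v, tcone h x v = fderiv ℝ h x v := by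
    intro v
    obtain ⟨r, hr, hform⟩ := Hx.exists_tcone
    have hline : HasDerivAt (fun t : ℝ => h (x + t • v)) (fderiv ℝ h x v) 0 := by
      have h1 : HasFDerivAt h (fderiv ℝ h x) (x + (0:ℝ) • v) := by
        simpa using hd.hasFDerivAt
      have h2 : HasDerivAt (fun t : ℝ => x + t • v) v 0 := by
        have := ((hasDerivAt_id (0:ℝ)).smul_const v).const_add x
        rw [one_smul] at this
        exact this
      exact h1.comp_hasDerivAt 0 h2
    have hline2 : HasDerivWithinAt (fun t : ℝ => h (x + t • v)) (tcone h x v) (Ici 0) 0 := by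
      have hev : ∀ᶠ s : ℝ in 𝓝[Ici 0] 0, h (x + s • v) = h x + s • tcone h x v := by
        have hc2 : Continuous (fun s : ℝ => ‖s • v‖) := by fun_prop
        have h1 : ∀ᶠ s : ℝ in 𝓝[Ici 0] 0, ‖s • v‖ < r :=
          (hc2.continuousAt.eventually_lt_const (by simpa using hr)).filter_mono nhdsWithin_le_nhds
        filter_upwards [h1, self_mem_nhdsWithin] with s hs hs0
        rw [hform _ hs.le, Hx.tcone_smul hs0]
      have hlin : HasDerivWithinAt (fun s : ℝ => h x + s • tcone h x v) (tcone h x v)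
          (Ici 0) 0 := by
        have h2 := ((hasDerivAt_id (0:ℝ)).smul_const (tcone h x v)).const_add (h x)
        rw [one_smul] at h2
        exact h2.hasDerivWithinAt
      exact hlin.congr_of_eventuallyEq hev (by simp)
    have huniq : UniqueDiffWithinAt ℝ (Ici (0:ℝ)) 0 := uniqueDiffOn_Ici 0 0 self_mem_Ici
    exact (huniq.eq_deriv _ hline2 hline.hasDerivWithinAt)
  rw [eq_top_iff]
  intro v _ s u
  rw [key, key, key, map_add, map_smul]

theorem linSpace_eq_top_iff_differentiableAt [FiniteDimensional ℝ E] {x : E}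
    (Hx : ConicalAt h x) : linSpace h x = ⊤ ↔ DifferentiableAt ℝ h x :=
  ⟨differentiableAt_of_top Hx, top_of_differentiableAt Hx⟩

/-- **the singular set is negligible** -/
theorem measure_singular_eq_zero [FiniteDimensional ℝ E] [FiniteDimensional ℝ F]
    [MeasurableSpace E] [BorelSpace E] (μ : Measure E) [μ.IsAddHaarMeasure]
    (hΩ : IsOpen Ω) (H : ConicalOn h Ω) (hc : ContinuousOn h Ω) :
    μ {x ∈ Ω | linSpace h x ≠ ⊤} = 0 := by
  apply measure_null_of_locally_null
  rintro x ⟨hx, -⟩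
  obtain ⟨δ, hδ, hb, M, hM⟩ := exists_lipschitz_near hΩ H hc hx
  have hae := hM.ae_differentiableWithinAt_of_mem (μ := μ)
  refine ⟨{y ∈ Ω | linSpace h y ≠ ⊤} ∩ ball x δ,
    inter_mem self_mem_nhdsWithin (mem_nhdsWithin_of_mem_nhds (ball_mem_nhds x hδ)), ?_⟩
  rw [← compl_compl ({y ∈ Ω | linSpace h y ≠ ⊤} ∩ ball x δ)]
  change ∀ᵐ y ∂μ, y ∈ ({y ∈ Ω | linSpace h y ≠ ⊤} ∩ ball x δ)ᶜ
  filter_upwards [hae] with y hy
  rintro ⟨⟨hyΩ, hne⟩, hyb⟩
  apply hne
  have h1 := hy hyb
  have h2 : DifferentiableAt ℝ h y := h1.differentiableAt (isOpen_ball.mem_nhds hyb)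
  exact top_of_differentiableAt (H.conicalAt hΩ hyΩ) h2

end P073
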