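import Vale.Agent.P073.Sep
import Mathlib.MeasureTheory.Measure.Hausdorff
import Mathlib.MeasureTheory.Measure.Lebesgue.EqHaar

/-!
# P073: invariance of domain in `ℝⁿ`

`isOpen_image_of_injOn` : a continuous injective map from an open subset of `Fin n → ℝ` to
`Fin n → ℝ` is open.
-/

open Set Topology Metric MeasureTheory
open scoped NNReal ENNReal

namespace Vale.Agent.P073.Sep

/-- Lipschitz approximation of a continuous function on a compact set. -/
theorem exists_lipschitz_approx {α : Type*} [PseudoMetricSpace α] {S : Set α} (hS : IsCompact S)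
    {u : α → ℝ} (hu : ContinuousOn u S) {ε : ℝ} (hε : 0 < ε) :
    ∃ (P : α → ℝ) (L : ℝ), 0 ≤ L ∧ (∀ x y, |P x - P y| ≤ L * dist x y) ∧
      ∀ x ∈ S, |P x - u x| ≤ ε := by
  rcases S.eq_empty_or_nonempty with rfl | hne
  · exact ⟨fun _ => 0, 0, le_rfl, fun x y => by simp, by simp⟩
  obtain ⟨C, hC⟩ : ∃ C : ℝ, ∀ x ∈ S, |u x| ≤ C := by
    obtain ⟨C, hC⟩ := (hS.image_of_continuousOn hu).isBounded.exists_norm_le
    exact ⟨C, fun x hx => hC _ ⟨x, hx, rfl⟩⟩
  have hC0 : 0 ≤ C := (abs_nonneg _).trans (hC _ hne.some_mem)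
  have huc := hS.uniformContinuousOn_of_continuous hu
  rw [Metric.uniformContinuousOn_iff] at huc
  obtain ⟨δ, hδ, hδu⟩ := huc ε hε
  set L : ℝ := 2 * C / δ with hL
  have hL0 : 0 ≤ L := by positivity
  set P : α → ℝ := fun x => sInf ((fun y => u y + L * dist x y) '' S) with hP
  have hbdd : ∀ x, BddBelow ((fun y => u y + L * dist x y) '' S) := by
    intro x
    refine ⟨-C, ?_⟩
    rintro _ ⟨y, hy, rfl⟩
    have h1 := neg_le_of_abs_le (hC y hy)
    have h2 : 0 ≤ L * dist x y := mul_nonneg hL0 dist_nonneg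
    simp only
    linarith
  have hnei : ∀ x, ((fun y => u y + L * dist x y) '' S).Nonempty := fun x => hne.image _
  have hle : ∀ x, ∀ y ∈ S, P x ≤ u y + L * dist x y := fun x y hy =>
    csInf_le (hbdd x) ⟨y, hy, rfl⟩
  have hge : ∀ x c, (∀ y ∈ S, c ≤ u y + L * dist x y) → c ≤ P x := by
    intro x c h
    apply le_csInf (hnei x)
    rintro _ ⟨y, hy, rfl⟩
    exact h y hy
  have hLip : ∀ x y, P x - P y ≤ L * dist x y := by
    intro x y
    have : P x - L * dist x y ≤ P y := by
      apply hge
      intro z hz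
      have h1 := hle x z hz
      have h2 : dist x z ≤ dist x y + dist y z := dist_triangle _ _ _
      have h3 : L * dist x z ≤ L * (dist x y + dist y z) := mul_le_mul_of_nonneg_left h2 hL0
      linarith [mul_add L (dist x y) (dist y z)]
    linarith
  refine ⟨P, L, hL0, ?_, ?_⟩
  · intro x y
    rw [abs_le]
    constructor
    · have := hLip y x
      rw [dist_comm] at this
      linarith
    · exact hLip x y
  · intro x hx
    rw [abs_le]
    constructor
    · have : u x - ε ≤ P x := by
        apply hge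
        intro y hy
        by_cases hxy : dist x y < δ
        · have h1 := hδu x hx y hy hxy
          rw [Real.dist_eq] at h1
          have h2 := (abs_lt.1 h1).2
          have h3 : 0 ≤ L * dist x y := mul_nonneg hL0 dist_nonneg
          linarith
        · push Not at hxy
          have h1 : 2 * C ≤ L * dist x y := by
            calc 2 * C = L * δ := by rw [hL]; field_simp
              _ ≤ L * dist x y := mul_le_mul_of_nonneg_left hxy hL0
          have h2 := (abs_le.1 (hC x hx)).2
          have h3 := (abs_le.1 (hC y hy)).1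
          linarith
      linarith
    · have := hle x x hx
      rw [dist_self, mul_zero, add_zero] at this
      linarith

variable {n : ℕ}

/-- vector valued version -/
theorem exists_lipschitz_approx_pi {S : Set (Fin n → ℝ)} (hS : IsCompact S)
    {u : (Fin n → ℝ) → (Fin n → ℝ)} (hu : ContinuousOn u S) {ε : ℝ} (hε : 0 < ε) :
    ∃ (P : (Fin n → ℝ) → (Fin n → ℝ)) (L : ℝ≥0), LipschitzWith L P ∧
      ∀ x ∈ S, ‖P x - u x‖ ≤ ε := by
  have h := fun i : Fin n => exists_lipschitz_approx hS
    (u := fun x => u x i) ((continuous_apply i).comp_continuousOn hu) hε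
  choose P L hL0 hL hP using h
  have hsum : 0 ≤ ∑ i, L i := Finset.sum_nonneg fun i _ => hL0 i
  refine ⟨fun x i => P i x, Real.toNNReal (∑ i, L i), ?_, ?_⟩
  · apply LipschitzWith.of_dist_le_mul
    intro x y
    rw [Real.coe_toNNReal _ hsum, dist_pi_le_iff (mul_nonneg hsum dist_nonneg)]
    intro i
    rw [Real.dist_eq]
    refine (hL i x y).trans (mul_le_mul_of_nonneg_right ?_ dist_nonneg)
    exact Finset.single_le_sum (f := L) (fun j _ => hL0 j) (Finset.mem_univ i)
  · intro x hx
    rw [pi_norm_le_iff_of_nonneg hε.le]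
    intro i
    rw [Real.norm_eq_abs]
    exact hP i x hx

/-- the Lipschitz image of a null set is null -/
theorem volume_image_lipschitz {P : (Fin n → ℝ) → (Fin n → ℝ)} {L : ℝ≥0} (hP : LipschitzWith L P)
    {S : Set (Fin n → ℝ)} (hS : volume S = 0) : volume (P '' S) = 0 := by
  have h := hP.hausdorffMeasure_image_le (d := (n : ℝ)) (Nat.cast_nonneg n) S
  have h2 : (μH[(n : ℝ)] : Measure (Fin n → ℝ)) = volume := by
    have := hausdorffMeasure_pi_real (ι := Fin n)
    rwa [Fintype.card_fin] at this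
  rw [h2, hS, mul_zero] at h
  exact le_antisymm h bot_le

/-- A nonvanishing map on a closed subset of a compact null set extends to a nonvanishing map. -/
theorem extNV_of_null {S A : Set (Fin n → ℝ)} (hS : IsCompact S)
    (hS0 : volume S = 0) (hA : IsClosed A) (hAS : A ⊆ S) {φ : (Fin n → ℝ) → (Fin n → ℝ)}
    (hφ : ContinuousOn φ A) (hφ0 : ∀ x ∈ A, φ x ≠ 0) : ExtNV S A φ := by
  have hAc : IsCompact A := hS.of_isClosed_subset hA hAS
  obtain ⟨m, hm0, hm⟩ : ∃ m : ℝ, 0 < m ∧ ∀ x ∈ A, m ≤ ‖φ x‖ := by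
    rcases A.eq_empty_or_nonempty with rfl | hne
    · exact ⟨1, one_pos, by simp⟩
    · obtain ⟨x0, hx0, hmin⟩ := hAc.exists_isMinOn hne hφ.norm
      exact ⟨‖φ x0‖, norm_pos_iff.2 (hφ0 x0 hx0), fun x hx => hmin hx⟩
  obtain ⟨D, hDc, hD⟩ := exists_ext hA hφ
  obtain ⟨P, L, hPL, hP⟩ := exists_lipschitz_approx_pi hS (u := D) hDc.continuousOn
    (ε := m / 8) (by positivity)
  have hnull := volume_image_lipschitz hPL hS0
  obtain ⟨w, hw, hwP⟩ : ∃ w ∈ ball (0 : Fin n → ℝ) (m / 8), w ∉ P '' S := by
    by_contra hcon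
    push Not at hcon
    have h1 : volume (ball (0 : Fin n → ℝ) (m / 8)) = 0 := measure_mono_null hcon hnull
    have h2 : 0 < volume (ball (0 : Fin n → ℝ) (m / 8)) := measure_ball_pos _ _ (by positivity)
    exact absurd h1 h2.ne'
  rw [mem_ball_zero_iff] at hw
  have hcl : ∀ x ∈ A, ‖φ x - (P x - w)‖ ≤ m / 4 := by
    intro x hx
    have h1 := hP x (hAS hx)
    rw [hD x hx] at h1
    calc ‖φ x - (P x - w)‖ = ‖-(P x - φ x) + w‖ := by congr 1; abel
      _ ≤ ‖-(P x - φ x)‖ + ‖w‖ := norm_add_le _ _
      _ ≤ m / 8 + m / 8 := by rw [norm_neg]; exact add_le_add h1 hw.le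
      _ = m / 4 := by ring
  refine ExtNV.close hA hφ (ψ := fun x => P x - w)
    ((hPL.continuous.continuousOn).sub continuousOn_const) ?_ hAS ?_
  · intro x hx
    have h1 := hcl x hx
    have h2 := hm x hx
    have h3 : ‖φ x‖ ≤ ‖φ x - (P x - w)‖ + ‖P x - w‖ := by
      have := norm_add_le (φ x - (P x - w)) (P x - w)
      rwa [sub_add_cancel] at this
    linarith
  · refine ⟨fun x => P x - w, hPL.continuous.continuousOn.sub continuousOn_const, ?_,
      fun _ _ => rfl⟩
    intro x hx h
    exact hwP ⟨x, hx, sub_eq_zero.1 h⟩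

/-- **Invariance of domain**, local form. -/
theorem mem_interior_image_ball {x0 : Fin n → ℝ} {r : ℝ} (hr : 0 < r)
    {f : (Fin n → ℝ) → (Fin n → ℝ)} (hf : ContinuousOn f (closedBall x0 r))
    (hinj : InjOn f (closedBall x0 r)) : f x0 ∈ interior (f '' closedBall x0 r) := by
  classical
  rcases Nat.eq_zero_or_pos n with rfl | hn
  · have : f '' closedBall x0 r = univ := by
      apply eq_univ_of_forall
      intro y
      exact ⟨x0, mem_closedBall_self hr.le, Subsingleton.elim _ _⟩
    rw [this, interior_univ]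
    exact mem_univ _
  by_contra hcon
  set B := closedBall x0 r with hB
  have hBc : IsCompact B := isCompact_closedBall _ _
  set K := f '' B with hK
  have hKc : IsCompact K := hBc.image_of_continuousOn hf
  have hx0 : x0 ∈ B := mem_closedBall_self hr.le
  -- the inverse
  obtain ⟨g, hgc, hg⟩ : ∃ g : (Fin n → ℝ) → (Fin n → ℝ), ContinuousOn g K ∧
      ∀ x ∈ B, g (f x) = x := by
    set g := Function.invFunOn f B with hgdef
    have hgl : ∀ x ∈ B, g (f x) = x := fun x hx => hinj.leftInvOn_invFunOn hx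
    refine ⟨g, ?_, hgl⟩
    rw [continuousOn_iff_isClosed]
    intro t ht
    refine ⟨f '' (B ∩ t), ?_, ?_⟩
    · exact ((hBc.inter_right ht).image_of_continuousOn (hf.mono inter_subset_left)).isClosed
    · ext y
      constructor
      · rintro ⟨hy, x, hx, rfl⟩
        have : g (f x) ∈ t := hy
        rw [hgl x hx] at this
        exact ⟨⟨x, ⟨hx, this⟩, rfl⟩, ⟨x, hx, rfl⟩⟩
      · rintro ⟨⟨x, ⟨hx, hxt⟩, rfl⟩, -⟩
        refine ⟨?_, x, hx, rfl⟩
        show g (f x) ∈ t
        rwa [hgl x hx]
  -- the images of the boundary are far from `f x0`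
  set S0 := sphere x0 r with hS0
  have hS0B : S0 ⊆ B := sphere_subset_closedBall
  obtain ⟨ε, hε, hεS⟩ : ∃ ε : ℝ, 0 < ε ∧ ∀ x ∈ S0, 2 * ε ≤ dist (f x) (f x0) := by
    have : IsCompact S0 := isCompact_sphere _ _
    have : Nonempty (Fin n) := ⟨⟨0, hn⟩⟩
    have hne : S0.Nonempty := NormedSpace.sphere_nonempty.2 hr.le
    obtain ⟨z, hz, hmin⟩ := (isCompact_sphere x0 r).exists_isMinOn hne
      (f := fun x => dist (f x) (f x0))
      (continuous_dist.comp_continuousOn ((hf.mono hS0B).prodMk continuousOn_const))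
    refine ⟨dist (f z) (f x0) / 2, ?_, ?_⟩
    · apply half_pos
      rw [dist_pos]
      intro h
      have : z = x0 := hinj (hS0B hz) hx0 h
      rw [this, mem_sphere, dist_self] at hz
      exact hr.ne hz
    · intro x hx
      have := hmin hx
      simp only [mem_ofPred_eq] at this
      linarith
  -- a nearby point outside `K`
  obtain ⟨c, hcK, hcd⟩ : ∃ c, c ∉ K ∧ dist c (f x0) < ε := by
    by_contra hno
    push Not at hno
    apply hcon
    rw [mem_interior]
    refine ⟨ball (f x0) ε, fun y hy => ?_, isOpen_ball, mem_ball_self hε⟩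
    by_contra hyK
    exact absurd (mem_ball.1 hy) (not_lt.2 (hno y hyK))
  -- the sphere around `c`
  set Sε := sphere c ε with hSε
  have hSεc : IsCompact Sε := isCompact_sphere _ _
  have hSε0 : volume Sε = 0 := Measure.addHaar_sphere_of_ne_zero _ _ hε.ne'
  have hf0 : f x0 ∉ Sε := by
    intro h
    rw [mem_sphere, dist_comm] at h
    exact hcd.ne h
  have hext : ExtNV Sε (Sε ∩ K) (fun y => g y - x0) := by
    apply extNV_of_null hSεc hSε0 (hSεc.isClosed.inter hKc.isClosed) inter_subset_left
    · exact (hgc.mono inter_subset_right).sub continuousOn_const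
    · rintro y ⟨hy, x, hx, rfl⟩ h
      rw [hg x hx, sub_eq_zero] at h
      rw [h] at hy
      exact hf0 hy
  obtain ⟨Γ, hΓc, hΓ0, hΓ⟩ := hext
  -- glue on `K₁ = K ∖ ball c ε` and `Sε`
  set K1 := K \ ball c ε with hK1
  have hK1c : IsClosed K1 := hKc.isClosed.sdiff isOpen_ball
  set G0 : (Fin n → ℝ) → (Fin n → ℝ) := fun y => if y ∈ Sε then Γ y else g y - x0 with hG0
  have hG0c : ContinuousOn G0 (Sε ∪ K1) := by
    apply ContinuousOn.union_of_isClosed
    · exact hΓc.congr fun y hy => by simp only [hG0, hy, if_true]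
    · have : ContinuousOn (fun y => g y - x0) K1 :=
        (hgc.mono sdiff_subset).sub continuousOn_const
      refine this.congr fun y hy => ?_
      by_cases h : y ∈ Sε
      · simp only [hG0, h, if_true]
        exact hΓ y ⟨h, hy.1⟩
      · simp only [hG0, h, if_false]
    · exact hSεc.isClosed
    · exact hK1c
  have hG00 : ∀ y ∈ Sε ∪ K1, G0 y ≠ 0 := by
    intro y hy
    by_cases h : y ∈ Sε
    · simp only [hG0, h, if_true]
      exact hΓ0 y h
    · simp only [hG0, h, if_false]
      rcases hy with hy | hy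
      · exact (h hy).elim
      · obtain ⟨⟨x, hx, rfl⟩, hyb⟩ := hy
        intro h0
        rw [hg x hx, sub_eq_zero] at h0
        rw [h0] at hyb
        exact hyb (by rw [mem_ball, dist_comm]; exact hcd)
  -- the retraction
  set ρ : (Fin n → ℝ) → (Fin n → ℝ) := fun y => c + (max 1 (ε / dist y c)) • (y - c) with hρ
  have hρc : ContinuousOn ρ K := by
    have h1 : ContinuousOn (fun y => max 1 (ε / dist y c)) K := by
      apply continuousOn_const.sup
      apply continuousOn_const.div (continuous_id.dist continuous_const).continuousOn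
      intro y hy h
      rw [id_eq, dist_eq_zero] at h
      exact hcK (h ▸ hy)
    exact continuousOn_const.add (h1.smul (continuous_id.sub continuous_const).continuousOn)
  have hρK : ∀ y ∈ K, ρ y ∈ Sε ∪ K1 := by
    intro y hy
    have hyc : 0 < dist y c := by
      rw [dist_pos]; rintro rfl; exact hcK hy
    by_cases h : dist y c ≤ ε
    · left
      have h1 : 1 ≤ ε / dist y c := by rwa [le_div_iff₀ hyc, one_mul]
      have h2 : max 1 (ε / dist y c) = ε / dist y c := max_eq_right h1
      have h3 : ρ y = c + (ε / dist y c) • (y - c) := by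
        simp only [hρ, h2]
      rw [hSε, mem_sphere, h3, dist_eq_norm, add_sub_cancel_left]
      rw [norm_smul, Real.norm_eq_abs, abs_of_nonneg (by positivity), ← dist_eq_norm]
      exact div_mul_cancel₀ _ hyc.ne'
    · right
      push Not at h
      have h1 : ε / dist y c ≤ 1 := by rw [div_le_one hyc]; exact h.le
      have h2 : max 1 (ε / dist y c) = 1 := max_eq_left h1
      have h3 : ρ y = y := by
        simp only [hρ, h2, one_smul]
        abel
      rw [h3]
      exact ⟨hy, fun hb => absurd (mem_ball.1 hb) (not_lt.2 h.le)⟩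
  have hρfix : ∀ y ∈ K, ε < dist y c → ρ y = y := by
    intro y hy h
    have hyc : 0 < dist y c := hε.trans h
    have h1 : ε / dist y c ≤ 1 := by rw [div_le_one hyc]; exact h.le
    simp only [hρ, max_eq_left h1, one_smul]
    abel
  -- the contradiction
  refine not_extNV_of_mem hBc (T := S0) (x := x0) ?_ hx0 ⟨fun x => G0 (ρ (f x)), ?_, ?_, ?_⟩
  · exact (frontier_closedBall _ hr.ne').le
  · exact hG0c.comp (hρc.comp hf fun x hx => ⟨x, hx, rfl⟩) fun x hx => hρK _ ⟨x, hx, rfl⟩
  · intro x hx
    exact hG00 _ (hρK _ ⟨x, hx, rfl⟩)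
  · intro x hx
    have h1 := hεS x hx
    have h2 : ε < dist (f x) c := by
      have := dist_triangle (f x) c (f x0)
      linarith
    have h3 : ρ (f x) = f x := hρfix _ ⟨x, hS0B hx, rfl⟩ h2
    have h4 : f x ∉ Sε := by
      intro h
      rw [mem_sphere] at h
      exact h2.ne' h
    simp only [h3, hG0, h4, if_false]
    rw [hg x (hS0B hx)]

/-- **Invariance of domain.** -/
theorem isOpen_image_of_injOn {U : Set (Fin n → ℝ)} (hU : IsOpen U)
    {f : (Fin n → ℝ) → (Fin n → ℝ)} (hf : ContinuousOn f U) (hinj : InjOn f U) :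
    IsOpen (f '' U) := by
  rw [isOpen_iff_mem_nhds]
  rintro _ ⟨x, hx, rfl⟩
  obtain ⟨r, hr, hrU⟩ := nhds_basis_closedBall.mem_iff.1 (hU.mem_nhds hx)
  have h := mem_interior_image_ball hr (hf.mono hrU) (hinj.mono hrU)
  exact mem_interior_iff_mem_nhds.1 (interior_mono (image_mono hrU) h)

end Vale.Agent.P073.Sep
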