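import Vale.Agent.P073.ConicalBody

/-!
# P073: locally finite gluing of conical homeomorphisms, conical balls, extension over cells
-/

open Set Metric Topology Filter

namespace P073

variable {E F G : Type*} [NormedAddCommGroup E] [NormedSpace ℝ E]
  [NormedAddCommGroup F] [NormedSpace ℝ F] [NormedAddCommGroup G] [NormedSpace ℝ G]

/-- a family of sets which is locally finite and relatively closed in its union -/
structure RelLF {ι : Type*} {T : Type*} [TopologicalSpace T] (X : ι → Set T) : Prop where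
  fin : ∀ z ∈ ⋃ i, X i, ∃ U ∈ 𝓝 z, {i | (X i ∩ U).Nonempty}.Finite
  closed : ∀ i, ∀ z ∈ ⋃ i, X i, z ∈ closure (X i) → z ∈ X i

theorem RelLF.of_finite {ι : Type*} {T : Type*} [TopologicalSpace T] [Finite ι] {X : ι → Set T}
    (h : ∀ i, IsClosed (X i)) : RelLF X where
  fin := fun _ _ => ⟨univ, univ_mem, toFinite _⟩
  closed := fun i z _ hz => by rwa [(h i).closure_eq] at hz

theorem RelLF.continuousOn {ι : Type*} {S T : Type*} [TopologicalSpace S] [TopologicalSpace T]
    {X : ι → Set S} (hX : RelLF X) {f : S → T} (hf : ∀ i, ContinuousOn f (X i)) :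
    ContinuousOn f (⋃ i, X i) := by
  intro x hx
  obtain ⟨U, hU, hfin⟩ := hX.fin x hx
  have h1 : ContinuousWithinAt f (⋃ i ∈ {i | (X i ∩ U).Nonempty}, X i) x := by
    rw [ContinuousWithinAt, nhdsWithin_biUnion hfin, tendsto_iSup]
    intro i
    rw [tendsto_iSup]
    intro _
    by_cases hxi : x ∈ X i
    · exact hf i x hxi
    · have : 𝓝[X i] x = ⊥ := by
        rw [← notMem_closure_iff_nhdsWithin_eq_bot]
        exact fun hcl => hxi (hX.closed i x hx hcl)
      rw [this]; exact tendsto_bot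
  have h2 : ContinuousWithinAt f ((⋃ i, X i) ∩ U) x := by
    apply h1.mono
    rintro y ⟨hy, hyU⟩
    obtain ⟨i, hi⟩ := mem_iUnion.1 hy
    exact mem_biUnion (show i ∈ {i | (X i ∩ U).Nonempty} from ⟨y, hi, hyU⟩) hi
  exact (continuousWithinAt_inter hU).1 h2

theorem RelLF.conicalOn {ι : Type*} {X : ι → Set E} (hX : RelLF X) {f : E → F}
    (hf : ∀ i, ConicalOn f (X i)) : ConicalOn f (⋃ i, X i) :=
  ConicalOn.iUnion_of_locallyFinite hf hX.fin hX.closed

/-- **Locally finite gluing** of conical homeomorphisms. -/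
theorem ConHomeo.exists_glue_family {ι : Type*} {X : ι → Set E} {Y : ι → Set F}
    (hX : RelLF X) (hY : RelLF Y) (h : ∀ i, ConHomeo (X i) (Y i))
    (hag : ∀ i j, EqOn (h i).toFun (h j).toFun (X i ∩ X j))
    (himg : ∀ i j, Y i ∩ Y j ⊆ (h i).toFun '' (X i ∩ X j)) :
    ∃ Φ : ConHomeo (⋃ i, X i) (⋃ i, Y i), ∀ i, EqOn Φ.toFun (h i).toFun (X i) ∧
      EqOn Φ.invFun (h i).invFun (Y i) := by
  classical
  have hag' : ∀ i j, EqOn (h i).invFun (h j).invFun (Y i ∩ Y j) := by
    intro i j y hy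
    obtain ⟨x, hx, rfl⟩ := himg i j hy
    rw [(h i).left_inv hx.1, hag i j hx, (h j).left_inv hx.2]
  let f : E → F := fun x => if hx : ∃ i, x ∈ X i then (h hx.choose).toFun x else 0
  let g : F → E := fun y => if hy : ∃ i, y ∈ Y i then (h hy.choose).invFun y else 0
  have hf : ∀ i, EqOn f (h i).toFun (X i) := by
    intro i x hx
    have hex : ∃ i, x ∈ X i := ⟨i, hx⟩
    simp only [f]
    rw [dif_pos hex]
    exact hag _ i ⟨hex.choose_spec, hx⟩
  have hg : ∀ i, EqOn g (h i).invFun (Y i) := by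
    intro i x hx
    have hex : ∃ i, x ∈ Y i := ⟨i, hx⟩
    simp only [g]
    rw [dif_pos hex]
    exact hag' _ i ⟨hex.choose_spec, hx⟩
  refine ⟨
    { toFun := f
      invFun := g
      mapsTo := ?_
      mapsTo_inv := ?_
      left_inv := ?_
      right_inv := ?_
      cont := hX.continuousOn fun i => (h i).cont.congr (hf i)
      cont_inv := hY.continuousOn fun i => (h i).cont_inv.congr (hg i)
      conical := hX.conicalOn fun i => (h i).conical.congr (hf i) }, fun i => ⟨hf i, hg i⟩⟩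
  · intro x hx
    obtain ⟨i, hi⟩ := mem_iUnion.1 hx
    rw [hf i hi]; exact mem_iUnion.2 ⟨i, (h i).mapsTo hi⟩
  · intro x hx
    obtain ⟨i, hi⟩ := mem_iUnion.1 hx
    rw [hg i hi]; exact mem_iUnion.2 ⟨i, (h i).mapsTo_inv hi⟩
  · intro x hx
    obtain ⟨i, hi⟩ := mem_iUnion.1 hx
    rw [hf i hi, hg i ((h i).mapsTo hi), (h i).left_inv hi]
  · intro x hx
    obtain ⟨i, hi⟩ := mem_iUnion.1 hx
    rw [hg i hi, hf i ((h i).mapsTo_inv hi), (h i).right_inv hi]

/-! ### Conical balls -/

/-- `C` is a conical `n`-ball with boundary `B` -/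
def ConBall (n : ℕ) (C B : Set E) : Prop :=
  B ⊆ C ∧ ∃ φ : ConHomeo C (closedBall (0 : Fin n → ℝ) 1), φ.toFun '' B = sphere 0 1

/-- `B` is a conical `n`-sphere... more precisely the boundary model of an `(n+1)`-ball -/
def ConSphere (n : ℕ) (B : Set E) : Prop :=
  Nonempty (ConHomeo B (sphere (0 : Fin (n + 1) → ℝ) 1))

theorem ConBall.isCompact {n : ℕ} {C B : Set E} (h : ConBall n C B) : IsCompact C := by
  obtain ⟨_, φ, _⟩ := h
  exact φ.symm.isCompact_right (isCompact_closedBall _ _)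

theorem ConBall.isClosed {n : ℕ} {C B : Set E} (h : ConBall n C B) : IsClosed C :=
  h.isCompact.isClosed

theorem ConBall.eq_preimage {n : ℕ} {C B : Set E} (h : ConBall n C B) :
    ∃ φ : ConHomeo C (closedBall (0 : Fin n → ℝ) 1), φ.invFun '' (sphere 0 1) = B := by
  obtain ⟨hBC, φ, hφ⟩ := h
  refine ⟨φ, ?_⟩
  rw [← hφ, image_image]
  have : ∀ x ∈ B, φ.invFun (φ.toFun x) = x := fun x hx => φ.left_inv (hBC hx)
  rw [image_congr this, image_id']

theorem ConBall.isCompact_bdry {n : ℕ} {C B : Set E} (h : ConBall n C B) : IsCompact B := by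
  obtain ⟨φ, hφ⟩ := h.eq_preimage
  rw [← hφ]
  exact (isCompact_sphere _ _).image_of_continuousOn (φ.cont_inv.mono sphere_subset_closedBall)

theorem locCone_closedBall_pi (n : ℕ) (r : ℝ) : LocCone (closedBall (0 : Fin n → ℝ) r) := by
  rcases lt_or_ge r 0 with hr | hr
  · rw [closedBall_eq_empty.2 hr]; exact locCone_empty
  · have : closedBall (0 : Fin n → ℝ) r = Icc (fun _ => -r) (fun _ => r) := by
      ext x
      rw [mem_closedBall_zero_iff, pi_norm_le_iff_of_nonneg hr]
      simp only [mem_Icc, Pi.le_def, Real.norm_eq_abs, abs_le]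
      exact forall_and
    rw [this]; exact locCone_Icc_pi _ _

theorem conicalSet_sphere_pi (n : ℕ) : ConicalSet (sphere (0 : Fin n → ℝ) 1) := by
  rcases Nat.eq_zero_or_pos n with h | h
  · subst h
    intro x hx
    rw [mem_sphere_zero_iff_norm] at hx
    have : x = 0 := Subsingleton.elim _ _
    rw [this, norm_zero] at hx
    exact absurd hx zero_ne_one
  · have : Nonempty (Fin n) := ⟨⟨0, h⟩⟩
    have h1 : sphere (0 : Fin n → ℝ) 1 = frontier (closedBall 0 1) :=
      (frontier_closedBall _ one_ne_zero).symm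
    rw [h1]
    exact (locCone_closedBall_pi n 1).frontier.conicalSet

theorem ConBall.conicalSet {n : ℕ} {C B : Set E} (h : ConBall n C B) : ConicalSet C := by
  obtain ⟨_, φ, _⟩ := h
  exact φ.conicalSet_left

theorem ConBall.conicalSet_bdry {n : ℕ} {C B : Set E} (h : ConBall n C B) : ConicalSet B := by
  obtain ⟨φ, hφ⟩ := h.eq_preimage
  rw [← hφ]
  exact φ.symm.conicalSet_image (conicalSet_sphere_pi n) sphere_subset_closedBall

/-- the boundary of a conical `(n+1)`-ball is a conical `n`-sphere -/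
theorem ConBall.conSphere {n : ℕ} {C B : Set E} (h : ConBall (n + 1) C B) : ConSphere n B := by
  obtain ⟨hBC, φ, hφ⟩ := h
  have hB : ConicalSet B := ConBall.conicalSet_bdry ⟨hBC, φ, hφ⟩
  exact ⟨(φ.restr hB hBC).cast rfl hφ⟩

/-- image of a conical ball under a conical homeomorphism -/
theorem ConBall.image {n : ℕ} {C B : Set E} (h : ConBall n C B) {X : Set E} {Y : Set F}
    (Φ : ConHomeo X Y) (hCX : C ⊆ X) : ConBall n (Φ.toFun '' C) (Φ.toFun '' B) := by
  obtain ⟨hBC, φ, hφ⟩ := h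
  refine ⟨image_mono hBC, (Φ.restr φ.conicalSet_left hCX).symm.trans φ, ?_⟩
  rw [← hφ]
  ext z
  constructor
  · rintro ⟨_, ⟨x, hx, rfl⟩, rfl⟩
    refine ⟨x, hx, ?_⟩
    show φ.toFun x = φ.toFun (Φ.invFun (Φ.toFun x))
    rw [Φ.left_inv (hCX (hBC hx))]
  · rintro ⟨x, hx, rfl⟩
    refine ⟨_, ⟨x, hx, rfl⟩, ?_⟩
    show φ.toFun (Φ.invFun (Φ.toFun x)) = φ.toFun x
    rw [Φ.left_inv (hCX (hBC hx))]

theorem coneSet_sphere_pi (n : ℕ) [Nonempty (Fin n)] :
    coneSet (sphere (0 : Fin n → ℝ) 1) = closedBall 0 1 := by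
  have h1 : sphere (0 : Fin n → ℝ) 1 = frontier (closedBall 0 1) :=
    (frontier_closedBall _ one_ne_zero).symm
  rw [h1]
  exact coneSet_frontier (isCompact_closedBall _ _) (convex_closedBall _ _)
    (closedBall_mem_nhds _ one_pos)

theorem rayBase_sphere_pi (n : ℕ) : RayBase (sphere (0 : Fin n → ℝ) 1) := by
  refine ⟨isCompact_sphere _ _, by simp, ?_⟩
  intro x hx s hs hsx
  rw [mem_sphere_zero_iff_norm] at hx hsx
  rw [norm_smul, hx, mul_one, Real.norm_of_nonneg hs.le] at hsx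
  exact hsx

/-- the standard ball: extension of a conical homeomorphism of the sphere -/
theorem exists_extend_stdBall (n : ℕ)
    (φ : ConHomeo (sphere (0 : Fin n → ℝ) 1) (sphere (0 : Fin n → ℝ) 1)) :
    ∃ Φ : ConHomeo (closedBall (0 : Fin n → ℝ) 1) (closedBall (0 : Fin n → ℝ) 1),
      EqOn Φ.toFun φ.toFun (sphere 0 1) ∧ Φ.toFun 0 = 0 := by
  rcases Nat.eq_zero_or_pos n with h | h
  · subst h
    refine ⟨ConHomeo.refl (locCone_closedBall_pi 0 1).conicalSet, ?_, rfl⟩
    intro x hx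
    rw [mem_sphere_zero_iff_norm] at hx
    have : x = 0 := Subsingleton.elim _ _
    rw [this, norm_zero] at hx
    exact absurd hx zero_ne_one
  · have : Nonempty (Fin n) := ⟨⟨0, h⟩⟩
    refine ⟨(ConHomeo.cone (rayBase_sphere_pi n) (rayBase_sphere_pi n) φ).cast
      (coneSet_sphere_pi n) (coneSet_sphere_pi n), ConHomeo.cone_eqOn _ _ φ, ?_⟩
    have hne : (sphere (0 : Fin n → ℝ) 1).Nonempty := NormedSpace.sphere_nonempty.2 zero_le_one
    obtain ⟨x, hx⟩ := hne
    have := ConHomeo.cone_smul (rayBase_sphere_pi n) (rayBase_sphere_pi n) φ (s := 0)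
      ⟨le_refl _, zero_le_one⟩ hx
    simpa using this

/-- **Extension over a cell**: a conical homeomorphism between the boundaries of two conical
`n`-balls extends to the balls. -/
theorem ConBall.exists_extend {n : ℕ} {C B : Set E} {C' B' : Set F} (h : ConBall n C B)
    (h' : ConBall n C' B') (φ : ConHomeo B B') :
    ∃ Φ : ConHomeo C C', EqOn Φ.toFun φ.toFun B ∧ Φ.toFun '' B = B' := by
  have hB := h.conicalSet_bdry
  have hB' := h'.conicalSet_bdry
  obtain ⟨hBC, α, hα⟩ := h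
  obtain ⟨hBC', β, hβ⟩ := h'
  let α' : ConHomeo B (sphere (0 : Fin n → ℝ) 1) := (α.restr hB hBC).cast rfl hα
  let β' : ConHomeo B' (sphere (0 : Fin n → ℝ) 1) := (β.restr hB' hBC').cast rfl hβ
  obtain ⟨Ψ, hΨ, -⟩ := exists_extend_stdBall n (α'.symm.trans (φ.trans β'))
  have key : EqOn (α.trans (Ψ.trans β.symm)).toFun φ.toFun B := by
    intro x hx
    show β.invFun (Ψ.toFun (α.toFun x)) = φ.toFun x
    have h1 : α.toFun x ∈ sphere (0 : Fin n → ℝ) 1 := hα ▸ mem_image_of_mem _ hx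
    rw [hΨ h1]
    show β.invFun (β.toFun (φ.toFun (α.invFun (α.toFun x)))) = φ.toFun x
    rw [α.left_inv (hBC hx), β.left_inv (hBC' (φ.mapsTo hx))]
  refine ⟨α.trans (Ψ.trans β.symm), key, ?_⟩
  rw [key.image_eq, φ.image_eq]

/-- **Extension over a locally finite family of cells.**  The cells `C i` are attached to `X`
along their boundaries `B i`. -/
theorem ConHomeo.exists_extend_cells {ι : Type*} {X : Set E} {Y : Set F} (φ : ConHomeo X Y)
    (n : ι → ℕ) (C B : ι → Set E) (C' B' : ι → Set F)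
    (hC : ∀ i, ConBall (n i) (C i) (B i)) (hC' : ∀ i, ConBall (n i) (C' i) (B' i))
    (hφ : ∀ i, φ.toFun '' (B i) = B' i)
    (hX : ∀ i, C i ∩ X = B i) (hY : ∀ i, C' i ∩ Y = B' i)
    (hd : ∀ i j, i ≠ j → C i ∩ C j ⊆ X) (hd' : ∀ i j, i ≠ j → C' i ∩ C' j ⊆ Y)
    (hcl : ∀ z ∈ X ∪ ⋃ i, C i, z ∈ closure X → z ∈ X)
    (hcl' : ∀ z ∈ Y ∪ ⋃ i, C' i, z ∈ closure Y → z ∈ Y)
    (hf : ∀ z ∈ X ∪ ⋃ i, C i, ∃ U ∈ 𝓝 z, {i | (C i ∩ U).Nonempty}.Finite)
    (hf' : ∀ z ∈ Y ∪ ⋃ i, C' i, ∃ U ∈ 𝓝 z, {i | (C' i ∩ U).Nonempty}.Finite) :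
    ∃ Φ : ConHomeo (X ∪ ⋃ i, C i) (Y ∪ ⋃ i, C' i), EqOn Φ.toFun φ.toFun X ∧
      ∀ i, Φ.toFun '' (C i) = C' i := by
  classical
  have hBX : ∀ i, B i ⊆ X := fun i => hX i ▸ inter_subset_right
  have hBC : ∀ i, B i ⊆ C i := fun i => (hC i).1
  have hφB : ∀ i, Nonempty (ConHomeo (B i) (B' i)) := fun i => by
    exact ⟨(φ.restr (hC i).conicalSet_bdry (hBX i)).cast rfl (hφ i)⟩
  have hext : ∀ i, ∃ Φ : ConHomeo (C i) (C' i), EqOn Φ.toFun φ.toFun (B i) ∧
      Φ.toFun '' B i = B' i := fun i =>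
    (hC i).exists_extend (hC' i) ((φ.restr (hC i).conicalSet_bdry (hBX i)).cast rfl (hφ i))
  choose Φ hΦ hΦB using hext
  let X' : Option ι → Set E := fun o => o.elim X C
  let Y' : Option ι → Set F := fun o => o.elim Y C'
  have hUX : (⋃ o, X' o) = X ∪ ⋃ i, C i := by
    rw [iUnion_option]; rfl
  have hUY : (⋃ o, Y' o) = Y ∪ ⋃ i, C' i := by
    rw [iUnion_option]; rfl
  have finOpt : ∀ {T : Type _} (X' : Option ι → Set T) (U : Set T),
      {i : ι | (X' (some i) ∩ U).Nonempty}.Finite → {o | (X' o ∩ U).Nonempty}.Finite := by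
    intro T X' U hfin
    refine ((hfin.image some).union (finite_singleton (none : Option ι))).subset ?_
    intro o ho
    cases o with
    | none => exact Or.inr rfl
    | some i => exact Or.inl ⟨i, ho, rfl⟩
  have hLX : RelLF X' := by
    constructor
    · intro z hz
      rw [hUX] at hz
      obtain ⟨U, hU, hfin⟩ := hf z hz
      exact ⟨U, hU, finOpt X' U hfin⟩
    · intro o z hz hzo
      rw [hUX] at hz
      cases o with
      | none => exact hcl z hz hzo
      | some i =>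
        have : z ∈ closure (C i) := hzo
        rw [(hC i).isClosed.closure_eq] at this
        exact this
  have finOpt' : ∀ (Y' : Option ι → Set F) (U : Set F),
      {i : ι | (Y' (some i) ∩ U).Nonempty}.Finite → {o | (Y' o ∩ U).Nonempty}.Finite := by
    intro Y' U hfin
    refine ((hfin.image some).union (finite_singleton (none : Option ι))).subset ?_
    intro o ho
    cases o with
    | none => exact Or.inr rfl
    | some i => exact Or.inl ⟨i, ho, rfl⟩
  have hLY : RelLF Y' := by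
    constructor
    · intro z hz
      rw [hUY] at hz
      obtain ⟨U, hU, hfin⟩ := hf' z hz
      exact ⟨U, hU, finOpt' Y' U hfin⟩
    · intro o z hz hzo
      rw [hUY] at hz
      cases o with
      | none => exact hcl' z hz hzo
      | some i =>
        have : z ∈ closure (C' i) := hzo
        rw [(hC' i).isClosed.closure_eq] at this
        exact this
  let h : ∀ o, ConHomeo (X' o) (Y' o) := fun o =>
    match o with
    | none => φ
    | some i => Φ i
  have hsame : ∀ {i} {x : E}, x ∈ C i → x ∈ X → (Φ i).toFun x = φ.toFun x := by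
    intro i x hx hxX
    exact hΦ i (hX i ▸ ⟨hx, hxX⟩)
  have hag : ∀ o o', EqOn (h o).toFun (h o').toFun (X' o ∩ X' o') := by
    intro o o' x hx
    cases o with
    | none =>
      cases o' with
      | none => rfl
      | some j => exact (hsame hx.2 hx.1).symm
    | some i =>
      cases o' with
      | none => exact hsame hx.1 hx.2
      | some j =>
        by_cases hij : i = j
        · subst hij; rfl
        · have hxX : x ∈ X := hd i j hij hx
          exact (hsame hx.1 hxX).trans (hsame hx.2 hxX).symm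
  have himg : ∀ o o', Y' o ∩ Y' o' ⊆ (h o).toFun '' (X' o ∩ X' o') := by
    intro o o' y hy
    have hB' : ∀ {i} {y : F}, y ∈ C' i → y ∈ Y → ∃ x ∈ B i, φ.toFun x = y := by
      intro i y h1 h2
      have : y ∈ B' i := hY i ▸ ⟨h1, h2⟩
      rw [← hφ i] at this
      exact this
    cases o with
    | none =>
      cases o' with
      | none =>
        obtain ⟨x, hx, rfl⟩ : y ∈ φ.toFun '' X := by rw [φ.image_eq]; exact hy.1
        exact ⟨x, ⟨hx, hx⟩, rfl⟩
      | some j =>
        obtain ⟨x, hx, rfl⟩ := hB' hy.2 hy.1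
        exact ⟨x, ⟨hBX j hx, hBC j hx⟩, rfl⟩
    | some i =>
      cases o' with
      | none =>
        obtain ⟨x, hx, rfl⟩ := hB' hy.1 hy.2
        exact ⟨x, ⟨hBC i hx, hBX i hx⟩, hΦ i hx⟩
      | some j =>
        by_cases hij : i = j
        · subst hij
          obtain ⟨x, hx, hxy⟩ : y ∈ (Φ i).toFun '' (C i) := by
            rw [(Φ i).image_eq]; exact hy.1
          exact ⟨x, ⟨hx, hx⟩, hxy⟩
        · have hyY : y ∈ Y := hd' i j hij hy
          obtain ⟨x, hx, hxy⟩ := hB' hy.1 hyY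
          obtain ⟨x', hx', hxy'⟩ := hB' hy.2 hyY
          have : x = x' := φ.injOn (hBX i hx) (hBX j hx') (hxy.trans hxy'.symm)
          subst this
          exact ⟨x, ⟨hBC i hx, hBC j hx'⟩, (hΦ i hx).trans hxy⟩
  obtain ⟨Ψ, hΨ⟩ := ConHomeo.exists_glue_family hLX hLY h hag himg
  refine ⟨Ψ.cast hUX hUY, ?_, ?_⟩
  · exact (hΨ none).1
  · intro i
    have : EqOn Ψ.toFun (Φ i).toFun (C i) := (hΨ (some i)).1
    show Ψ.toFun '' (C i) = C' i
    rw [this.image_eq, (Φ i).image_eq]

end P073
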