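import Vale.Agent.P073.Conical

/-!
# P073: conical homeomorphisms between sets, gluing and coning
-/

open Set Metric Topology Filter

namespace P073

variable {E F G : Type*} [NormedAddCommGroup E] [NormedSpace ℝ E]
  [NormedAddCommGroup F] [NormedSpace ℝ F] [NormedAddCommGroup G] [NormedSpace ℝ G]

/-- A conical homeomorphism from the set `X` onto the set `Y`. -/
structure ConHomeo (X : Set E) (Y : Set F) where
  /-- the map (junk outside `X`) -/
  toFun : E → F
  /-- the inverse (junk outside `Y`) -/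
  invFun : F → E
  mapsTo : MapsTo toFun X Y
  mapsTo_inv : MapsTo invFun Y X
  left_inv : LeftInvOn invFun toFun X
  right_inv : RightInvOn invFun toFun Y
  cont : ContinuousOn toFun X
  cont_inv : ContinuousOn invFun Y
  conical : ConicalOn toFun X

namespace ConHomeo

variable {X X' : Set E} {Y Y' : Set F} {Z : Set G}

theorem conical_inv (h : ConHomeo X Y) : ConicalOn h.invFun Y :=
  h.conical.inverse h.mapsTo h.mapsTo_inv h.left_inv h.right_inv h.cont_inv

/-- the inverse conical homeomorphism -/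
def symm (h : ConHomeo X Y) : ConHomeo Y X where
  toFun := h.invFun
  invFun := h.toFun
  mapsTo := h.mapsTo_inv
  mapsTo_inv := h.mapsTo
  left_inv := h.right_inv
  right_inv := h.left_inv
  cont := h.cont_inv
  cont_inv := h.cont
  conical := h.conical_inv

@[simp] theorem symm_toFun (h : ConHomeo X Y) : h.symm.toFun = h.invFun := rfl
@[simp] theorem symm_invFun (h : ConHomeo X Y) : h.symm.invFun = h.toFun := rfl
@[simp] theorem symm_symm (h : ConHomeo X Y) : h.symm.symm = h := rfl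

/-- composition -/
def trans (h : ConHomeo X Y) (k : ConHomeo Y Z) : ConHomeo X Z where
  toFun := k.toFun ∘ h.toFun
  invFun := h.invFun ∘ k.invFun
  mapsTo := k.mapsTo.comp h.mapsTo
  mapsTo_inv := h.mapsTo_inv.comp k.mapsTo_inv
  left_inv := fun x hx => by
    simp only [Function.comp]
    rw [k.left_inv (h.mapsTo hx), h.left_inv hx]
  right_inv := fun z hz => by
    simp only [Function.comp]
    rw [h.right_inv (k.mapsTo_inv hz), k.right_inv hz]
  cont := k.cont.comp h.cont h.mapsTo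
  cont_inv := h.cont_inv.comp k.cont_inv k.mapsTo_inv
  conical := k.conical.comp h.conical h.mapsTo h.cont

@[simp] theorem trans_toFun (h : ConHomeo X Y) (k : ConHomeo Y Z) :
    (h.trans k).toFun = k.toFun ∘ h.toFun := rfl
@[simp] theorem trans_invFun (h : ConHomeo X Y) (k : ConHomeo Y Z) :
    (h.trans k).invFun = h.invFun ∘ k.invFun := rfl

/-- identity of a conical set -/
def refl (hX : ConicalSet X) : ConHomeo X X where
  toFun := fun x => x
  invFun := fun x => x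
  mapsTo := mapsTo_id X
  mapsTo_inv := mapsTo_id X
  left_inv := fun _ _ => rfl
  right_inv := fun _ _ => rfl
  cont := continuousOn_id
  cont_inv := continuousOn_id
  conical := conicalOn_id hX

theorem image_eq (h : ConHomeo X Y) : h.toFun '' X = Y := by
  apply Subset.antisymm h.mapsTo.image_subset
  intro y hy
  exact ⟨h.invFun y, h.mapsTo_inv hy, h.right_inv hy⟩

theorem injOn (h : ConHomeo X Y) : InjOn h.toFun X := h.left_inv.injOn

theorem conicalSet_left (h : ConHomeo X Y) : ConicalSet X := h.conical.conicalSet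

theorem conicalSet_right (h : ConHomeo X Y) : ConicalSet Y := h.conical_inv.conicalSet

/-- restriction to a conical subset -/
def restr (h : ConHomeo X Y) (hX' : ConicalSet X') (hsub : X' ⊆ X) :
    ConHomeo X' (h.toFun '' X') where
  toFun := h.toFun
  invFun := h.invFun
  mapsTo := mapsTo_image _ _
  mapsTo_inv := by
    rintro _ ⟨x, hx, rfl⟩
    rw [h.left_inv (hsub hx)]; exact hx
  left_inv := h.left_inv.mono hsub
  right_inv := by
    rintro _ ⟨x, hx, rfl⟩
    rw [h.left_inv (hsub hx)]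
  cont := h.cont.mono hsub
  cont_inv := h.cont_inv.mono ((image_mono hsub).trans h.mapsTo.image_subset)
  conical := h.conical.mono hX' hsub

@[simp] theorem restr_toFun (h : ConHomeo X Y) (hX' : ConicalSet X') (hsub : X' ⊆ X) :
    (h.restr hX' hsub).toFun = h.toFun := rfl

/-- images of conical subsets are conical -/
theorem conicalSet_image (h : ConHomeo X Y) (hX' : ConicalSet X') (hsub : X' ⊆ X) :
    ConicalSet (h.toFun '' X') := (h.restr hX' hsub).conicalSet_right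

/-- cast along equalities of sets -/
def cast (h : ConHomeo X Y) (hX : X = X') (hY : Y = Y') : ConHomeo X' Y' where
  toFun := h.toFun
  invFun := h.invFun
  mapsTo := hX ▸ hY ▸ h.mapsTo
  mapsTo_inv := hX ▸ hY ▸ h.mapsTo_inv
  left_inv := hX ▸ h.left_inv
  right_inv := hY ▸ h.right_inv
  cont := hX ▸ h.cont
  cont_inv := hY ▸ h.cont_inv
  conical := hX ▸ h.conical

@[simp] theorem cast_toFun (h : ConHomeo X Y) (hX : X = X') (hY : Y = Y') :
    (h.cast hX hY).toFun = h.toFun := rfl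

/-- constructor from a map with compact source -/
noncomputable def ofCompact (hX : IsCompact X) (f : E → F) (hf : ContinuousOn f X)
    (hinj : InjOn f X) (hc : ConicalOn f X) (hY : f '' X = Y) : ConHomeo X Y := by
  classical
  have hbij : BijOn f X Y := ⟨hY ▸ mapsTo_image f X, hinj, hY ▸ surjOn_image f X⟩
  by_cases hne : X.Nonempty
  · haveI : Nonempty E := ⟨hne.some⟩
    refine
      { toFun := f
        invFun := Function.invFunOn f X
        mapsTo := hbij.mapsTo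
        mapsTo_inv := hbij.surjOn.mapsTo_invFunOn
        left_inv := hbij.injOn.leftInvOn_invFunOn
        right_inv := hbij.surjOn.rightInvOn_invFunOn
        cont := hf
        cont_inv := ?_
        conical := hc }
    -- the inverse of a continuous bijection of a compact set is continuous
    rw [continuousOn_iff_isClosed]
    intro t ht
    refine ⟨f '' (t ∩ X), ?_, ?_⟩
    · exact ((hX.inter_left ht).image_of_continuousOn (hf.mono inter_subset_right)).isClosed
    · ext y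
      constructor
      · rintro ⟨hy, hyY⟩
        refine ⟨⟨Function.invFunOn f X y, ⟨hy, hbij.surjOn.mapsTo_invFunOn hyY⟩, ?_⟩, hyY⟩
        exact hbij.surjOn.rightInvOn_invFunOn hyY
      · rintro ⟨⟨x, ⟨hxt, hxX⟩, rfl⟩, hyY⟩
        refine ⟨?_, hyY⟩
        show Function.invFunOn f X (f x) ∈ t
        rw [hbij.injOn.leftInvOn_invFunOn hxX]
        exact hxt
  · have hX0 : X = ∅ := not_nonempty_iff_eq_empty.1 hne
    have hY0 : Y = ∅ := by rw [← hY, hX0, image_empty]
    exact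
      { toFun := f
        invFun := fun _ => 0
        mapsTo := by rw [hX0]; exact mapsTo_empty _ _
        mapsTo_inv := by rw [hY0]; exact mapsTo_empty _ _
        left_inv := by rw [hX0]; exact fun x hx => absurd hx (notMem_empty x)
        right_inv := by rw [hY0]; exact fun x hx => absurd hx (notMem_empty x)
        cont := hf
        cont_inv := by rw [hY0]; exact continuousOn_empty _
        conical := hc }

@[simp] theorem ofCompact_toFun (hX : IsCompact X) (f : E → F) (hf : ContinuousOn f X)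
    (hinj : InjOn f X) (hc : ConicalOn f X) (hY : f '' X = Y) :
    (ofCompact hX f hf hinj hc hY).toFun = f := by
  unfold ofCompact
  simp only
  split_ifs <;> rfl

theorem isCompact_right (h : ConHomeo X Y) (hX : IsCompact X) : IsCompact Y := by
  rw [← h.image_eq]; exact hX.image_of_continuousOn h.cont

/-- **Gluing** of two conical homeomorphisms with closed (relative) pieces. -/
noncomputable def glue {X₁ X₂ : Set E} {Y₁ Y₂ : Set F} (h₁ : ConHomeo X₁ Y₁) (h₂ : ConHomeo X₂ Y₂)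
    (hX₁ : IsClosed X₁) (hX₂ : IsClosed X₂) (hY₁ : IsClosed Y₁) (hY₂ : IsClosed Y₂)
    (hag : EqOn h₁.toFun h₂.toFun (X₁ ∩ X₂))
    (himg : Y₁ ∩ Y₂ ⊆ h₁.toFun '' (X₁ ∩ X₂)) : ConHomeo (X₁ ∪ X₂) (Y₁ ∪ Y₂) := by
  classical
  have hag' : EqOn h₁.invFun h₂.invFun (Y₁ ∩ Y₂) := by
    intro y hy
    obtain ⟨x, hx, rfl⟩ := himg hy
    rw [h₁.left_inv hx.1, hag hx, h₂.left_inv hx.2]
  have e1 : ∀ x ∈ X₁, X₁.piecewise h₁.toFun h₂.toFun x = h₁.toFun x := fun x hx =>
    piecewise_eq_of_mem _ _ _ hx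
  have e2 : ∀ x ∈ X₂, X₁.piecewise h₁.toFun h₂.toFun x = h₂.toFun x := fun x hx => by
    by_cases hx1 : x ∈ X₁
    · rw [piecewise_eq_of_mem _ _ _ hx1]; exact hag ⟨hx1, hx⟩
    · rw [piecewise_eq_of_notMem _ _ _ hx1]
  have f1 : ∀ x ∈ Y₁, Y₁.piecewise h₁.invFun h₂.invFun x = h₁.invFun x := fun x hx =>
    piecewise_eq_of_mem _ _ _ hx
  have f2 : ∀ x ∈ Y₂, Y₁.piecewise h₁.invFun h₂.invFun x = h₂.invFun x := fun x hx => by
    by_cases hx1 : x ∈ Y₁
    · rw [piecewise_eq_of_mem _ _ _ hx1]; exact hag' ⟨hx1, hx⟩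
    · rw [piecewise_eq_of_notMem _ _ _ hx1]
  exact
    { toFun := X₁.piecewise h₁.toFun h₂.toFun
      invFun := Y₁.piecewise h₁.invFun h₂.invFun
      mapsTo := by
        rintro x (hx | hx)
        · rw [e1 x hx]; exact Or.inl (h₁.mapsTo hx)
        · rw [e2 x hx]; exact Or.inr (h₂.mapsTo hx)
      mapsTo_inv := by
        rintro x (hx | hx)
        · rw [f1 x hx]; exact Or.inl (h₁.mapsTo_inv hx)
        · rw [f2 x hx]; exact Or.inr (h₂.mapsTo_inv hx)
      left_inv := by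
        rintro x (hx | hx)
        · rw [e1 x hx, f1 _ (h₁.mapsTo hx), h₁.left_inv hx]
        · rw [e2 x hx, f2 _ (h₂.mapsTo hx), h₂.left_inv hx]
      right_inv := by
        rintro x (hx | hx)
        · rw [f1 x hx, e1 _ (h₁.mapsTo_inv hx), h₁.right_inv hx]
        · rw [f2 x hx, e2 _ (h₂.mapsTo_inv hx), h₂.right_inv hx]
      cont := by
        refine ContinuousOn.union_of_isClosed ?_ ?_ hX₁ hX₂
        · exact h₁.cont.congr fun x hx => e1 x hx
        · exact h₂.cont.congr fun x hx => e2 x hx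
      cont_inv := by
        refine ContinuousOn.union_of_isClosed ?_ ?_ hY₁ hY₂
        · exact h₁.cont_inv.congr fun x hx => f1 x hx
        · exact h₂.cont_inv.congr fun x hx => f2 x hx
      conical := by
        refine ConicalOn.union (h₁.conical.congr fun x hx => e1 x hx)
          (h₂.conical.congr fun x hx => e2 x hx) ?_ ?_
        · intro x _ hcl; rwa [hX₁.closure_eq] at hcl
        · intro x _ hcl; rwa [hX₂.closure_eq] at hcl }

theorem glue_left {X₁ X₂ : Set E} {Y₁ Y₂ : Set F} (h₁ : ConHomeo X₁ Y₁) (h₂ : ConHomeo X₂ Y₂)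
    (hX₁ : IsClosed X₁) (hX₂ : IsClosed X₂) (hY₁ : IsClosed Y₁) (hY₂ : IsClosed Y₂)
    (hag : EqOn h₁.toFun h₂.toFun (X₁ ∩ X₂))
    (himg : Y₁ ∩ Y₂ ⊆ h₁.toFun '' (X₁ ∩ X₂)) :
    EqOn (glue h₁ h₂ hX₁ hX₂ hY₁ hY₂ hag himg).toFun h₁.toFun X₁ := by
  classical
  intro x hx
  simp only [glue]
  exact piecewise_eq_of_mem _ _ _ hx

theorem glue_right {X₁ X₂ : Set E} {Y₁ Y₂ : Set F} (h₁ : ConHomeo X₁ Y₁) (h₂ : ConHomeo X₂ Y₂)
    (hX₁ : IsClosed X₁) (hX₂ : IsClosed X₂) (hY₁ : IsClosed Y₁) (hY₂ : IsClosed Y₂)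
    (hag : EqOn h₁.toFun h₂.toFun (X₁ ∩ X₂))
    (himg : Y₁ ∩ Y₂ ⊆ h₁.toFun '' (X₁ ∩ X₂)) :
    EqOn (glue h₁ h₂ hX₁ hX₂ hY₁ hY₂ hag himg).toFun h₂.toFun X₂ := by
  classical
  intro x hx
  simp only [glue]
  by_cases hx1 : x ∈ X₁
  · rw [piecewise_eq_of_mem _ _ _ hx1]; exact hag ⟨hx1, hx⟩
  · rw [piecewise_eq_of_notMem _ _ _ hx1]

end ConHomeo

/-! ### Coning -/

/-- the cone with apex `0` over `X` -/
def coneSet (X : Set E) : Set E := {y | ∃ s ∈ Icc (0:ℝ) 1, ∃ x ∈ X, y = s • x}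

/-- a base for coning from the origin: compact, not containing the origin, and every open ray from
the origin meets `X` at most once -/
structure RayBase (X : Set E) : Prop where
  compact : IsCompact X
  zero_notMem : (0:E) ∉ X
  ray : ∀ x ∈ X, ∀ s : ℝ, 0 < s → s • x ∈ X → s = 1

theorem RayBase.mono {X X' : Set E} (h : RayBase X) (hc : IsCompact X') (hsub : X' ⊆ X) :
    RayBase X' :=
  ⟨hc, fun h0 => h.zero_notMem (hsub h0), fun x hx s hs hsx => h.ray x (hsub hx) s hs (hsub hsx)⟩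

open Classical in
/-- the cone of a map -/
noncomputable def coneMap (X : Set E) (φ : E → F) : E → F := fun y =>
  if h : ∃ p : ℝ × E, p.1 ∈ Ioc (0:ℝ) 1 ∧ p.2 ∈ X ∧ y = p.1 • p.2 then
    (Classical.choose h).1 • φ (Classical.choose h).2 else 0

theorem RayBase.unique {X : Set E} (hX : RayBase X) {x x' : E} (hx : x ∈ X) (hx' : x' ∈ X)
    {s s' : ℝ} (hs : 0 < s) (hs' : 0 < s') (h : s • x = s' • x') : s = s' ∧ x = x' := by
  have h1 : x = (s⁻¹ * s') • x' := by
    rw [mul_smul, ← h, smul_smul, inv_mul_cancel₀ hs.ne', one_smul]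
  have h2 : s⁻¹ * s' = 1 := hX.ray x' hx' _ (by positivity) (h1 ▸ hx)
  rw [h2, one_smul] at h1
  refine ⟨?_, h1⟩
  field_simp at h2
  exact h2.symm

theorem coneMap_smul {X : Set E} (hX : RayBase X) (φ : E → F) {s : ℝ} (hs : s ∈ Icc (0:ℝ) 1)
    {x : E} (hx : x ∈ X) : coneMap X φ (s • x) = s • φ x := by
  unfold coneMap
  rcases eq_or_lt_of_le hs.1 with h0 | h0
  · rw [dif_neg]
    · rw [← h0, zero_smul]
    · rintro ⟨p, hp1, hp2, hp3⟩
      rw [← h0, zero_smul] at hp3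
      rcases smul_eq_zero.1 hp3.symm with h | h
      · exact absurd h hp1.1.ne'
      · exact hX.zero_notMem (h ▸ hp2)
  · have hex : ∃ p : ℝ × E, p.1 ∈ Ioc (0:ℝ) 1 ∧ p.2 ∈ X ∧ s • x = p.1 • p.2 :=
      ⟨(s, x), ⟨h0, hs.2⟩, hx, rfl⟩
    rw [dif_pos hex]
    obtain ⟨a, b, c⟩ := Classical.choose_spec hex
    obtain ⟨e1, e2⟩ := hX.unique hx b h0 a.1 c
    rw [← e1, ← e2]

theorem coneMap_of_mem {X : Set E} (hX : RayBase X) (φ : E → F) {x : E} (hx : x ∈ X) :
    coneMap X φ x = φ x := by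
  have := coneMap_smul hX φ (s := 1) ⟨zero_le_one, le_refl _⟩ hx
  simpa using this

theorem subset_coneSet {X : Set E} : X ⊆ coneSet X := fun x hx =>
  ⟨1, ⟨zero_le_one, le_refl _⟩, x, hx, (one_smul _ _).symm⟩

theorem isCompact_coneSet {X : Set E} (hX : IsCompact X) : IsCompact (coneSet X) := by
  have : coneSet X = (fun p : ℝ × E => p.1 • p.2) '' (Icc (0:ℝ) 1 ×ˢ X) := by
    ext y
    constructor
    · rintro ⟨s, hs, x, hx, rfl⟩
      exact ⟨(s, x), ⟨hs, hx⟩, rfl⟩
    · rintro ⟨⟨s, x⟩, ⟨hs, hx⟩, rfl⟩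
      exact ⟨s, hs, x, hx, rfl⟩
  rw [this]
  exact (isCompact_Icc.prod hX).image (by fun_prop)

theorem continuousOn_coneMap {X : Set E} (hX : RayBase X) {φ : E → F} (hφ : ContinuousOn φ X) :
    ContinuousOn (coneMap X φ) (coneSet X) := by
  rw [continuousOn_iff_isClosed]
  intro t ht
  have hK : IsCompact (Icc (0:ℝ) 1 ×ˢ X) := isCompact_Icc.prod hX.compact
  have hq : ContinuousOn (fun p : ℝ × E => p.1 • φ p.2) (Icc (0:ℝ) 1 ×ˢ X) := by
    refine ContinuousOn.smul continuousOn_fst ?_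
    exact hφ.comp continuousOn_snd (fun p hp => hp.2)
  obtain ⟨u, hu, hu'⟩ := (continuousOn_iff_isClosed.1 hq) t ht
  have hc : IsCompact ((fun p : ℝ × E => p.1 • p.2) '' (u ∩ Icc (0:ℝ) 1 ×ˢ X)) :=
    (hK.inter_left hu).image (by fun_prop)
  refine ⟨_, hc.isClosed, ?_⟩
  ext y
  constructor
  · rintro ⟨hy, hyX⟩
    obtain ⟨s, hs, x, hx, rfl⟩ := hyX
    refine ⟨⟨(s, x), ?_, rfl⟩, ⟨s, hs, x, hx, rfl⟩⟩
    rw [← hu']
    refine ⟨?_, hs, hx⟩
    show s • φ x ∈ t
    rw [← coneMap_smul hX φ hs hx]; exact hy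
  · rintro ⟨⟨⟨s, x⟩, hp, rfl⟩, hyX⟩
    rw [← hu'] at hp
    refine ⟨?_, hyX⟩
    show coneMap X φ (s • x) ∈ t
    rw [coneMap_smul hX φ hp.2.1 hp.2.2]
    exact hp.1

/-- nearby points of the cone have nearby projections to the base -/
theorem RayBase.exists_radius {X : Set E} (hX : RayBase X) {θ : E} (hθ : θ ∈ X) {s₀ : ℝ}
    (hs₀ : 0 < s₀) {ε : ℝ} (hε : 0 < ε) :
    ∃ δ > 0, ∀ w : E, ‖w‖ ≤ δ → ∀ s ∈ Icc (0:ℝ) 1, ∀ η ∈ X, s₀ • θ + w = s • η →
      0 < s ∧ ‖η - θ‖ ≤ ε := by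
  have hK : IsCompact (Icc (0:ℝ) 1 ×ˢ X) := isCompact_Icc.prod hX.compact
  have hc1 : IsCompact ((fun p : ℝ × E => p.1 • p.2) '' ({p : ℝ × E | ε ≤ ‖p.2 - θ‖} ∩
      Icc (0:ℝ) 1 ×ˢ X)) :=
    (hK.inter_left (isClosed_le continuous_const (by fun_prop))).image (by fun_prop)
  have hmem : s₀ • θ ∉ (fun p : ℝ × E => p.1 • p.2) '' ({p : ℝ × E | ε ≤ ‖p.2 - θ‖} ∩
      Icc (0:ℝ) 1 ×ˢ X) := by
    rintro ⟨⟨s, x⟩, ⟨hp1, hp2⟩, hp3⟩
    simp only at hp3
    rcases eq_or_lt_of_le hp2.1.1 with h0 | h0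
    · simp only at h0
      rw [← h0, zero_smul] at hp3
      rcases smul_eq_zero.1 hp3.symm with h | h
      · exact absurd h hs₀.ne'
      · exact hX.zero_notMem (h ▸ hθ)
    · obtain ⟨e1, e2⟩ := hX.unique hp2.2 hθ h0 hs₀ hp3
      simp only [mem_ofPred_eq] at hp1
      simp only at e2
      rw [e2, sub_self, norm_zero] at hp1
      exact absurd hp1 (not_le.2 hε)
  have hne : s₀ • θ ≠ 0 := by
    intro h
    rcases smul_eq_zero.1 h with h | h
    · exact absurd h hs₀.ne'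
    · exact hX.zero_notMem (h ▸ hθ)
  have hopen : (((fun p : ℝ × E => p.1 • p.2) '' ({p : ℝ × E | ε ≤ ‖p.2 - θ‖} ∩
      Icc (0:ℝ) 1 ×ˢ X)) ∪ {0})ᶜ ∈ 𝓝 (s₀ • θ) := by
    refine (hc1.isClosed.union isClosed_singleton).isOpen_compl.mem_nhds ?_
    rintro (h | h)
    · exact hmem h
    · exact hne h
  obtain ⟨δ, hδ, hb⟩ := Metric.nhds_basis_closedBall.mem_iff.1 hopen
  refine ⟨δ, hδ, fun w hw s hs η hη he => ?_⟩
  have h1 : s₀ • θ + w ∈ closedBall (s₀ • θ) δ := by
    rw [mem_closedBall, dist_eq_norm, add_sub_cancel_left]; exact hw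
  have h2 := hb h1
  rw [mem_compl_iff, mem_union, not_or] at h2
  constructor
  · rcases eq_or_lt_of_le hs.1 with h0 | h0
    · exfalso
      apply h2.2
      rw [he, ← h0, zero_smul]; rfl
    · exact h0
  · by_contra hlt
    push Not at hlt
    exact h2.1 ⟨(s, η), ⟨hlt.le, hs, hη⟩, he.symm⟩

theorem conicalOn_coneMap {X : Set E} (hX : RayBase X) {φ : E → F} (hφ : ConicalOn φ X) :
    ConicalOn (coneMap X φ) (coneSet X) := by
  rintro _ ⟨s₀, hs₀, θ, hθ, rfl⟩
  rcases eq_or_lt_of_le hs₀.1 with h0 | h0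
  · -- the apex
    rw [← h0, zero_smul]
    have hz : coneMap X φ 0 = 0 := by
      have := coneMap_smul hX φ (s := 0) ⟨le_refl _, zero_le_one⟩ hθ
      simpa using this
    refine ⟨1, one_pos, fun v _ hv t ht => ?_⟩
    rw [zero_add] at hv ⊢
    obtain ⟨s, hs, x, hx, rfl⟩ := hv
    have hts : t * s ∈ Icc (0:ℝ) 1 := ⟨mul_nonneg ht.1 hs.1, mul_le_one₀ ht.2 hs.1 hs.2⟩
    refine ⟨⟨t * s, hts, x, hx, by rw [smul_smul]⟩, ?_⟩
    rw [smul_smul, coneMap_smul hX φ hts hx, zero_add, coneMap_smul hX φ hs hx, hz, mul_smul]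
    simp
  · obtain ⟨r, hr, H⟩ := hφ θ hθ
    obtain ⟨δ, hδ, hb⟩ := hX.exists_radius hθ h0 hr
    refine ⟨δ, hδ, fun w hw hwX t ht => ?_⟩
    obtain ⟨s, hs, η, hη, he⟩ := hwX
    obtain ⟨hspos, hηθ⟩ := hb w hw s hs η hη he
    have hσ : 0 < (1 - t) * s₀ + t * s := by
      rcases eq_or_lt_of_le ht.1 with h | h
      · rw [← h]; simpa using h0
      · have := mul_nonneg (sub_nonneg.2 ht.2) h0.le
        have := mul_pos h hspos
        linarith
    have hσ1 : (1 - t) * s₀ + t * s ≤ 1 := by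
      have h1 := mul_le_mul_of_nonneg_left hs₀.2 (sub_nonneg.2 ht.2)
      have h2 := mul_le_mul_of_nonneg_left hs.2 ht.1
      linarith
    have hτ : t * s / ((1 - t) * s₀ + t * s) ∈ Icc (0:ℝ) 1 := by
      refine ⟨div_nonneg (mul_nonneg ht.1 hs.1) hσ.le, ?_⟩
      rw [div_le_one hσ]
      have := mul_nonneg (sub_nonneg.2 ht.2) h0.le
      linarith
    obtain ⟨c1, c2⟩ := H (η - θ) hηθ (by simpa using hη) _ hτ
    have e1 : s₀ • θ + t • w = ((1 - t) * s₀ + t * s) •
        (θ + (t * s / ((1 - t) * s₀ + t * s)) • (η - θ)) := by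
      have hw' : w = s • η - s₀ • θ := by rw [← he]; abel
      rw [hw', smul_add, smul_smul, mul_div_cancel₀ _ hσ.ne']
      module
    rw [add_sub_cancel] at c2
    refine ⟨⟨_, ⟨hσ.le, hσ1⟩, _, c1, e1⟩, ?_⟩
    rw [he, coneMap_smul hX φ hs hη, coneMap_smul hX φ hs₀ hθ, e1,
      coneMap_smul hX φ ⟨hσ.le, hσ1⟩ c1, c2, smul_add, smul_smul, mul_div_cancel₀ _ hσ.ne']
    module

theorem injOn_coneMap {X : Set E} {Y : Set F} (hX : RayBase X) (hY : RayBase Y)
    (φ : ConHomeo X Y) : InjOn (coneMap X φ.toFun) (coneSet X) := by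
  rintro _ ⟨s, hs, x, hx, rfl⟩ _ ⟨s', hs', x', hx', rfl⟩ h
  rw [coneMap_smul hX _ hs hx, coneMap_smul hX _ hs' hx'] at h
  have hnz : ∀ y ∈ X, φ.toFun y ≠ 0 := fun y hy h0 => hY.zero_notMem (h0 ▸ φ.mapsTo hy)
  rcases eq_or_lt_of_le hs.1 with h0 | h0
  · rw [← h0, zero_smul] at h
    rcases smul_eq_zero.1 h.symm with h1 | h1
    · rw [← h0, h1]; simp
    · exact absurd h1 (hnz x' hx')
  · rcases eq_or_lt_of_le hs'.1 with h0' | h0'
    · rw [← h0', zero_smul] at h
      rcases smul_eq_zero.1 h with h1 | h1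
      · exact absurd h1 h0.ne'
      · exact absurd h1 (hnz x hx)
    · obtain ⟨e1, e2⟩ := hY.unique (φ.mapsTo hx) (φ.mapsTo hx') h0 h0' h
      rw [e1, φ.injOn hx hx' e2]

theorem image_coneMap {X : Set E} {Y : Set F} (hX : RayBase X)
    (φ : ConHomeo X Y) : coneMap X φ.toFun '' coneSet X = coneSet Y := by
  ext y
  constructor
  · rintro ⟨_, ⟨s, hs, x, hx, rfl⟩, rfl⟩
    exact ⟨s, hs, φ.toFun x, φ.mapsTo hx, coneMap_smul hX _ hs hx⟩
  · rintro ⟨s, hs, y, hy, rfl⟩
    refine ⟨s • φ.invFun y, ⟨s, hs, _, φ.mapsTo_inv hy, rfl⟩, ?_⟩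
    rw [coneMap_smul hX _ hs (φ.mapsTo_inv hy), φ.right_inv hy]

/-- **Coning**: a conical homeomorphism of the bases extends to the cones. -/
noncomputable def ConHomeo.cone {X : Set E} {Y : Set F} (hX : RayBase X) (hY : RayBase Y)
    (φ : ConHomeo X Y) : ConHomeo (coneSet X) (coneSet Y) :=
  ConHomeo.ofCompact (isCompact_coneSet hX.compact) (coneMap X φ.toFun)
    (continuousOn_coneMap hX φ.cont) (injOn_coneMap hX hY φ)
    (conicalOn_coneMap hX φ.conical) (image_coneMap hX φ)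

theorem ConHomeo.cone_smul {X : Set E} {Y : Set F} (hX : RayBase X) (hY : RayBase Y)
    (φ : ConHomeo X Y) {s : ℝ} (hs : s ∈ Icc (0:ℝ) 1) {x : E} (hx : x ∈ X) :
    (ConHomeo.cone hX hY φ).toFun (s • x) = s • φ.toFun x := by
  rw [ConHomeo.cone, ConHomeo.ofCompact_toFun]
  exact coneMap_smul hX _ hs hx

theorem ConHomeo.cone_eqOn {X : Set E} {Y : Set F} (hX : RayBase X) (hY : RayBase Y)
    (φ : ConHomeo X Y) : EqOn (ConHomeo.cone hX hY φ).toFun φ.toFun X := by
  intro x hx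
  have := ConHomeo.cone_smul hX hY φ (s := 1) ⟨zero_le_one, le_refl _⟩ hx
  simpa using this

end P073
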