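import Mathlib

/-!
# P073: conical sets and conical maps

A map `h` is *conical at `x`* (relative to a set `X`) if near `x` it is positively homogeneous of
degree one around `x`: `h (x + t v) = h x + t (h (x + v) - h x)` for small `v` and `t ∈ [0,1]`.
This is a triangulation-free substitute for piecewise linear.
-/

open Set Metric Topology Filter

namespace P073

variable {E F G : Type*} [NormedAddCommGroup E] [NormedSpace ℝ E]
  [NormedAddCommGroup F] [NormedSpace ℝ F] [NormedAddCommGroup G] [NormedSpace ℝ G]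

/-- `X` is star-shaped around `x` near `x` (one-sided version). -/
def ConicalSetAt (X : Set E) (x : E) : Prop :=
  ∃ r > 0, ∀ v : E, ‖v‖ ≤ r → x + v ∈ X → ∀ t ∈ Icc (0:ℝ) 1, x + t • v ∈ X

/-- `X` is conical: star-shaped around each of its points, near this point. -/
def ConicalSet (X : Set E) : Prop := ∀ x ∈ X, ConicalSetAt X x

/-- two-sided version: near `x`, `X` is a cone with vertex `x` (no condition about `x ∈ X`). -/
def LocConeAt (X : Set E) (x : E) : Prop :=
  ∃ r > 0, ∀ v : E, ‖v‖ ≤ r → ∀ t ∈ Ioc (0:ℝ) 1, (x + t • v ∈ X ↔ x + v ∈ X)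

/-- `X` is locally a cone at every point of the space (polyhedral set). -/
def LocCone (X : Set E) : Prop := ∀ x, LocConeAt X x

/-- `h` is conical at `x` relative to `X`. -/
def ConicalWithinAt (h : E → F) (X : Set E) (x : E) : Prop :=
  ∃ r > 0, ∀ v : E, ‖v‖ ≤ r → x + v ∈ X → ∀ t ∈ Icc (0:ℝ) 1,
    x + t • v ∈ X ∧ h (x + t • v) = h x + t • (h (x + v) - h x)

/-- `h` is conical on `X` (at every point of `X`, relative to `X`). -/
def ConicalOn (h : E → F) (X : Set E) : Prop := ∀ x ∈ X, ConicalWithinAt h X x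

omit [NormedSpace ℝ E] in
/-- extract a radius from an eventual statement in `𝓝[X] x` -/
theorem exists_radius_of_nhdsWithin {X : Set E} {x : E} {p : E → Prop}
    (h : ∀ᶠ y in 𝓝[X] x, p y) : ∃ ρ > 0, ∀ v : E, ‖v‖ ≤ ρ → x + v ∈ X → p (x + v) := by
  rw [eventually_nhdsWithin_iff] at h
  obtain ⟨ρ, hρ, hb⟩ := Metric.nhds_basis_closedBall.mem_iff.1 h
  refine ⟨ρ, hρ, fun v hv hxv => ?_⟩
  have h1 : x + v ∈ closedBall x ρ := by
    rw [mem_closedBall, dist_eq_norm, add_sub_cancel_left]; exact hv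
  exact hb h1 hxv

theorem norm_smul_le_of_mem_Icc {v : E} {t r : ℝ} (ht : t ∈ Icc (0:ℝ) 1) (hv : ‖v‖ ≤ r) :
    ‖t • v‖ ≤ r := by
  rw [norm_smul, Real.norm_of_nonneg ht.1]
  calc t * ‖v‖ ≤ 1 * ‖v‖ := by gcongr; exact ht.2
    _ ≤ r := by rw [one_mul]; exact hv

/-! ### Sets -/

theorem ConicalWithinAt.conicalSetAt {h : E → F} {X : Set E} {x : E}
    (H : ConicalWithinAt h X x) : ConicalSetAt X x := by
  obtain ⟨r, hr, H⟩ := H
  exact ⟨r, hr, fun v hv hxv t ht => (H v hv hxv t ht).1⟩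

theorem ConicalOn.conicalSet {h : E → F} {X : Set E} (H : ConicalOn h X) : ConicalSet X :=
  fun x hx => (H x hx).conicalSetAt

theorem conicalSetAt_of_mem_nhds {X : Set E} {x : E} (hX : X ∈ 𝓝 x) : ConicalSetAt X x := by
  obtain ⟨r, hr, hb⟩ := Metric.nhds_basis_closedBall.mem_iff.1 hX
  refine ⟨r, hr, fun v hv _ t ht => hb ?_⟩
  rw [mem_closedBall, dist_eq_norm, add_sub_cancel_left, norm_smul, Real.norm_of_nonneg ht.1]
  calc t * ‖v‖ ≤ 1 * ‖v‖ := by gcongr; exact ht.2
    _ ≤ r := by rw [one_mul]; exact hv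

theorem IsOpen.conicalSet {X : Set E} (hX : IsOpen X) : ConicalSet X :=
  fun _ hx => conicalSetAt_of_mem_nhds (hX.mem_nhds hx)

theorem Convex.conicalSetAt {X : Set E} (hX : Convex ℝ X) {x : E} (hx : x ∈ X) :
    ConicalSetAt X x := by
  refine ⟨1, one_pos, fun v _ hv t ht => ?_⟩
  have := hX.add_smul_sub_mem hx hv ht
  simpa using this

theorem Convex.conicalSet {X : Set E} (hX : Convex ℝ X) : ConicalSet X :=
  fun _ hx => Convex.conicalSetAt hX hx

theorem ConicalSetAt.inter {X Y : Set E} {x : E} (hX : ConicalSetAt X x)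
    (hY : ConicalSetAt Y x) : ConicalSetAt (X ∩ Y) x := by
  obtain ⟨r, hr, hX⟩ := hX
  obtain ⟨s, hs, hY⟩ := hY
  refine ⟨min r s, lt_min hr hs, fun v hv hxv t ht => ⟨hX v (hv.trans (min_le_left _ _)) hxv.1 t ht,
    hY v (hv.trans (min_le_right _ _)) hxv.2 t ht⟩⟩

theorem ConicalSet.inter {X Y : Set E} (hX : ConicalSet X) (hY : ConicalSet Y) :
    ConicalSet (X ∩ Y) := fun x hx => (hX x hx.1).inter (hY x hx.2)

/-- Away from the closure a set is conical. -/
theorem conicalSetAt_of_notMem_closure {X : Set E} {x : E} (hx : x ∉ closure X) :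
    ConicalSetAt X x := by
  have : (closure X)ᶜ ∈ 𝓝 x := isClosed_closure.isOpen_compl.mem_nhds hx
  obtain ⟨r, hr, hb⟩ := Metric.nhds_basis_closedBall.mem_iff.1 this
  refine ⟨r, hr, fun v hv hxv t _ => ?_⟩
  exfalso
  have h1 : x + v ∈ closedBall x r := by
    rw [mem_closedBall, dist_eq_norm, add_sub_cancel_left]; exact hv
  exact hb h1 (subset_closure hxv)

theorem LocConeAt.conicalSetAt {X : Set E} {x : E} (h : LocConeAt X x) (hx : x ∈ X) :
    ConicalSetAt X x := by
  obtain ⟨r, hr, h⟩ := h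
  refine ⟨r, hr, fun v hv hxv t ht => ?_⟩
  rcases eq_or_lt_of_le ht.1 with h0 | h0
  · rw [← h0]; simpa using hx
  · exact (h v hv t ⟨h0, ht.2⟩).2 hxv

theorem LocCone.conicalSet {X : Set E} (h : LocCone X) : ConicalSet X :=
  fun x hx => (h x).conicalSetAt hx

theorem LocConeAt.compl {X : Set E} {x : E} (h : LocConeAt X x) : LocConeAt Xᶜ x := by
  obtain ⟨r, hr, h⟩ := h
  exact ⟨r, hr, fun v hv t ht => not_congr (h v hv t ht)⟩

theorem LocCone.compl {X : Set E} (h : LocCone X) : LocCone Xᶜ := fun x => (h x).compl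

theorem LocConeAt.inter {X Y : Set E} {x : E} (hX : LocConeAt X x) (hY : LocConeAt Y x) :
    LocConeAt (X ∩ Y) x := by
  obtain ⟨r, hr, hX⟩ := hX
  obtain ⟨s, hs, hY⟩ := hY
  exact ⟨min r s, lt_min hr hs, fun v hv t ht =>
    and_congr (hX v (hv.trans (min_le_left _ _)) t ht) (hY v (hv.trans (min_le_right _ _)) t ht)⟩

theorem LocCone.inter {X Y : Set E} (hX : LocCone X) (hY : LocCone Y) : LocCone (X ∩ Y) :=
  fun x => (hX x).inter (hY x)

theorem LocConeAt.union {X Y : Set E} {x : E} (hX : LocConeAt X x) (hY : LocConeAt Y x) :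
    LocConeAt (X ∪ Y) x := by
  obtain ⟨r, hr, hX⟩ := hX
  obtain ⟨s, hs, hY⟩ := hY
  exact ⟨min r s, lt_min hr hs, fun v hv t ht =>
    or_congr (hX v (hv.trans (min_le_left _ _)) t ht) (hY v (hv.trans (min_le_right _ _)) t ht)⟩

theorem LocCone.union {X Y : Set E} (hX : LocCone X) (hY : LocCone Y) : LocCone (X ∪ Y) :=
  fun x => (hX x).union (hY x)

theorem locConeAt_congr {X Y : Set E} {x : E} (h : ∀ᶠ y in 𝓝 x, (y ∈ X ↔ y ∈ Y)) :
    LocConeAt X x ↔ LocConeAt Y x := by
  suffices ∀ {X Y : Set E}, (∀ᶠ y in 𝓝 x, (y ∈ X ↔ y ∈ Y)) → LocConeAt X x → LocConeAt Y x from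
    ⟨this h, this (h.mono fun y hy => hy.symm)⟩
  intro X Y h hX
  obtain ⟨r, hr, hX⟩ := hX
  obtain ⟨s, hs, hb⟩ := Metric.nhds_basis_closedBall.mem_iff.1 h
  refine ⟨min r s, lt_min hr hs, fun v hv t ht => ?_⟩
  have h1 : x + v ∈ closedBall x s := by
    rw [mem_closedBall, dist_eq_norm, add_sub_cancel_left]; exact hv.trans (min_le_right _ _)
  have h2 : x + t • v ∈ closedBall x s := by
    rw [mem_closedBall, dist_eq_norm, add_sub_cancel_left, norm_smul, Real.norm_of_nonneg ht.1.le]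
    calc t * ‖v‖ ≤ 1 * ‖v‖ := by gcongr; exact ht.2
      _ ≤ s := by rw [one_mul]; exact hv.trans (min_le_right _ _)
  have e1 : x + v ∈ X ↔ x + v ∈ Y := hb h1
  have e2 : x + t • v ∈ X ↔ x + t • v ∈ Y := hb h2
  rw [← e1, ← e2]
  exact hX v (hv.trans (min_le_left _ _)) t ht

theorem locConeAt_univ (x : E) : LocConeAt (univ : Set E) x :=
  ⟨1, one_pos, fun _ _ _ _ => by simp⟩

theorem locCone_univ : LocCone (univ : Set E) := locConeAt_univ

theorem locCone_empty : LocCone (∅ : Set E) := fun _ => ⟨1, one_pos, fun _ _ _ _ => by simp⟩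

theorem LocConeAt.iUnion_finite {ι : Type*} [Finite ι] {X : ι → Set E} {x : E}
    (h : ∀ i, LocConeAt (X i) x) : LocConeAt (⋃ i, X i) x := by
  classical
  cases nonempty_fintype ι
  suffices ∀ s : Finset ι, LocConeAt (⋃ i ∈ s, X i) x by
    simpa using this Finset.univ
  intro s
  induction s using Finset.induction_on with
  | empty => simpa using locCone_empty x
  | insert a s ha ih =>
    rw [Finset.set_biUnion_insert]
    exact (h a).union ih

/-- locally finite unions of locally conical sets are locally conical -/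
theorem LocCone.iUnion_of_locallyFinite {ι : Type*} {X : ι → Set E} (hf : LocallyFinite X)
    (h : ∀ i, LocCone (X i)) : LocCone (⋃ i, X i) := by
  intro x
  obtain ⟨U, hU, hfin⟩ := hf x
  have : Finite {i | (X i ∩ U).Nonempty} := hfin
  have key : LocConeAt (⋃ i : {i | (X i ∩ U).Nonempty}, X i) x :=
    LocConeAt.iUnion_finite fun i => h i x
  refine (locConeAt_congr ?_).1 key
  filter_upwards [hU] with y hy
  constructor
  · intro hh
    obtain ⟨i, hi⟩ := mem_iUnion.1 hh
    exact mem_iUnion.2 ⟨i, hi⟩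
  · intro hh
    obtain ⟨i, hi⟩ := mem_iUnion.1 hh
    exact mem_iUnion.2 ⟨⟨i, ⟨y, hi, hy⟩⟩, hi⟩

/-! ### Maps -/

section maps

variable {h h' : E → F} {g : F → G} {X X' : Set E} {Y : Set F} {x : E}

theorem ConicalWithinAt.mono_set (H : ConicalWithinAt h X x) (hX' : ConicalSetAt X' x)
    (hsub : X' ⊆ X) : ConicalWithinAt h X' x := by
  obtain ⟨r, hr, H⟩ := H
  obtain ⟨s, hs, hX'⟩ := hX'
  exact ⟨min r s, lt_min hr hs, fun v hv hxv t ht =>
    ⟨hX' v (hv.trans (min_le_right _ _)) hxv t ht,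
      (H v (hv.trans (min_le_left _ _)) (hsub hxv) t ht).2⟩⟩

theorem ConicalOn.mono (H : ConicalOn h X) (hX' : ConicalSet X') (hsub : X' ⊆ X) :
    ConicalOn h X' := fun x hx => (H x (hsub hx)).mono_set (hX' x hx) hsub

theorem ConicalWithinAt.congr_of_eqOn (H : ConicalWithinAt h X x) (he : EqOn h' h X)
    (hx : x ∈ X) : ConicalWithinAt h' X x := by
  obtain ⟨r, hr, H⟩ := H
  refine ⟨r, hr, fun v hv hxv t ht => ?_⟩
  obtain ⟨h1, h2⟩ := H v hv hxv t ht
  exact ⟨h1, by rw [he h1, he hx, he hxv, h2]⟩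

theorem ConicalOn.congr (H : ConicalOn h X) (he : EqOn h' h X) : ConicalOn h' X :=
  fun x hx => (H x hx).congr_of_eqOn he hx

/-- conicality is local: only the germ of the set and of the map at `x` matter -/
theorem ConicalWithinAt.congr_nhds (H : ConicalWithinAt h X x)
    (hX : ∀ᶠ y in 𝓝 x, (y ∈ X' ↔ y ∈ X)) (he : ∀ᶠ y in 𝓝 x, y ∈ X → h' y = h y)
    (hx : h' x = h x) :
    ConicalWithinAt h' X' x := by
  obtain ⟨r, hr, H⟩ := H
  obtain ⟨s, hs, hb⟩ := Metric.nhds_basis_closedBall.mem_iff.1 (hX.and he)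
  refine ⟨min r s, lt_min hr hs, fun v hv hxv t ht => ?_⟩
  have h1 : x + v ∈ closedBall x s := by
    rw [mem_closedBall, dist_eq_norm, add_sub_cancel_left]; exact hv.trans (min_le_right _ _)
  have h2 : x + t • v ∈ closedBall x s := by
    rw [mem_closedBall, dist_eq_norm, add_sub_cancel_left, norm_smul, Real.norm_of_nonneg ht.1]
    calc t * ‖v‖ ≤ 1 * ‖v‖ := by gcongr; exact ht.2
      _ ≤ s := by rw [one_mul]; exact hv.trans (min_le_right _ _)
  obtain ⟨a1, a2⟩ := hb h1
  obtain ⟨b1, b2⟩ := hb h2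
  obtain ⟨c1, c2⟩ := H v (hv.trans (min_le_left _ _)) (a1.1 hxv) t ht
  refine ⟨b1.2 c1, ?_⟩
  rw [b2 c1, a2 (a1.1 hxv), hx, c2]

theorem ConicalWithinAt.comp (hg : ConicalWithinAt g Y (h x)) (hh : ConicalWithinAt h X x)
    (hmaps : MapsTo h X Y) (hcont : ContinuousWithinAt h X x) :
    ConicalWithinAt (g ∘ h) X x := by
  obtain ⟨s, hs, hg⟩ := hg
  obtain ⟨r, hr, hh⟩ := hh
  have : ∀ᶠ y in 𝓝[X] x, h y ∈ closedBall (h x) s := hcont (closedBall_mem_nhds _ hs)
  obtain ⟨ρ, hρ, hb⟩ := exists_radius_of_nhdsWithin this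
  refine ⟨min r ρ, lt_min hr hρ, fun v hv hxv t ht => ?_⟩
  have h2 : ‖h (x + v) - h x‖ ≤ s := by
    have := hb v (hv.trans (min_le_right _ _)) hxv
    rwa [mem_closedBall, dist_eq_norm] at this
  obtain ⟨c1, c2⟩ := hh v (hv.trans (min_le_left _ _)) hxv t ht
  refine ⟨c1, ?_⟩
  obtain ⟨d1, d2⟩ := hg (h (x + v) - h x) h2 (by
    have := hmaps hxv
    simpa using this) t ht
  simp only [Function.comp]
  rw [c2, d2]
  simp

theorem ConicalOn.comp (hg : ConicalOn g Y) (hh : ConicalOn h X)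
    (hmaps : MapsTo h X Y) (hcont : ContinuousOn h X) :
    ConicalOn (g ∘ h) X :=
  fun x hx => (hg (h x) (hmaps hx)).comp (hh x hx) hmaps (hcont x hx)

theorem ConicalWithinAt.inverse {k : F → E} (hh : ConicalWithinAt h X x) (hx : x ∈ X)
    (hmaps : MapsTo h X Y) (hk : MapsTo k Y X) (hl : LeftInvOn k h X) (hr : RightInvOn k h Y)
    (hcont : ContinuousWithinAt k Y (h x)) :
    ConicalWithinAt k Y (h x) := by
  obtain ⟨r, hr0, hh⟩ := hh
  have hkx : k (h x) = x := hl hx
  have : ∀ᶠ y in 𝓝[Y] (h x), k y ∈ closedBall (k (h x)) r := hcont (closedBall_mem_nhds _ hr0)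
  obtain ⟨ρ, hρ, hb⟩ := exists_radius_of_nhdsWithin this
  refine ⟨ρ, hρ, fun u hu hxu t ht => ?_⟩
  have h2 : ‖k (h x + u) - x‖ ≤ r := by
    have := hb u hu hxu
    rwa [mem_closedBall, dist_eq_norm, hkx] at this
  have h3 : x + (k (h x + u) - x) ∈ X := by
    have := hk hxu
    simpa using this
  obtain ⟨c1, c2⟩ := hh (k (h x + u) - x) h2 h3 t ht
  have h4 : h (x + (k (h x + u) - x)) = h x + u := by
    have := hr hxu
    simpa using this
  rw [h4, add_sub_cancel_left] at c2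
  refine ⟨c2 ▸ hmaps c1, ?_⟩
  rw [← c2, hl c1, hkx]

theorem ConicalOn.inverse {k : F → E} (hh : ConicalOn h X)
    (hmaps : MapsTo h X Y) (hk : MapsTo k Y X) (hl : LeftInvOn k h X) (hr : RightInvOn k h Y)
    (hcont : ContinuousOn k Y) : ConicalOn k Y := by
  intro y hy
  have h1 : h (k y) = y := hr hy
  have := (hh (k y) (hk hy)).inverse (hk hy) hmaps hk hl hr (h1.symm ▸ hcont y hy)
  rwa [h1] at this

/-! gluing -/

/-- gluing along a finite closed cover: `X = ⋃ X i`, if `x ∈ closure (X i) → x ∈ X i` -/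
theorem ConicalWithinAt.iUnion_finite {ι : Type*} [Finite ι] {X : ι → Set E}
    (H : ∀ i, x ∈ X i → ConicalWithinAt h (X i) x) (hc : ∀ i, x ∉ X i → x ∉ closure (X i)) :
    ConicalWithinAt h (⋃ i, X i) x := by
  classical
  cases nonempty_fintype ι
  have key : ∀ i, ∃ r > 0, ∀ v : E, ‖v‖ ≤ r → x + v ∈ X i → ∀ t ∈ Icc (0:ℝ) 1,
      x + t • v ∈ X i ∧ h (x + t • v) = h x + t • (h (x + v) - h x) := by
    intro i
    by_cases hx : x ∈ X i
    · exact H i hx
    · have : (closure (X i))ᶜ ∈ 𝓝 x := isClosed_closure.isOpen_compl.mem_nhds (hc i hx)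
      obtain ⟨r, hr, hb⟩ := Metric.nhds_basis_closedBall.mem_iff.1 this
      refine ⟨r, hr, fun v hv hxv t _ => ?_⟩
      exfalso
      have h1 : x + v ∈ closedBall x r := by
        rw [mem_closedBall, dist_eq_norm, add_sub_cancel_left]; exact hv
      exact hb h1 (subset_closure hxv)
  choose r hr H' using key
  by_cases hι : Nonempty ι
  · refine ⟨Finset.univ.inf' Finset.univ_nonempty r, ?_, fun v hv hxv t ht => ?_⟩
    · rw [gt_iff_lt, Finset.lt_inf'_iff]; intro i _; exact hr i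
    · obtain ⟨i, hi⟩ := mem_iUnion.1 hxv
      obtain ⟨a, b⟩ := H' i v (hv.trans (Finset.inf'_le _ (Finset.mem_univ i))) hi t ht
      exact ⟨mem_iUnion.2 ⟨i, a⟩, b⟩
  · refine ⟨1, one_pos, fun v hv hxv => ?_⟩
    obtain ⟨i, hi⟩ := mem_iUnion.1 hxv
    exact absurd ⟨i⟩ hι

/-- gluing along a locally finite closed cover (closed relative to the union) -/
theorem ConicalOn.iUnion_of_locallyFinite {ι : Type*} {X : ι → Set E}
    (H : ∀ i, ConicalOn h (X i))
    (hf : ∀ z ∈ ⋃ i, X i, ∃ U ∈ 𝓝 z, {i | (X i ∩ U).Nonempty}.Finite)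
    (hc : ∀ i, ∀ x ∈ ⋃ i, X i, x ∈ closure (X i) → x ∈ X i) :
    ConicalOn h (⋃ i, X i) := by
  intro x hx
  obtain ⟨U, hU, hfin⟩ := hf x hx
  have : Finite {i | (X i ∩ U).Nonempty} := hfin
  have key : ConicalWithinAt h (⋃ i : {i | (X i ∩ U).Nonempty}, X i) x :=
    ConicalWithinAt.iUnion_finite (fun i hi => H i x hi) (fun i hi hi' => hi (hc i x hx hi'))
  refine key.congr_nhds ?_ (Eventually.of_forall fun y _ => rfl) rfl
  filter_upwards [hU] with y hy
  constructor
  · intro hh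
    obtain ⟨i, hi⟩ := mem_iUnion.1 hh
    exact mem_iUnion.2 ⟨⟨i, ⟨y, hi, hy⟩⟩, hi⟩
  · intro hh
    obtain ⟨i, hi⟩ := mem_iUnion.1 hh
    exact mem_iUnion.2 ⟨i, hi⟩

theorem ConicalOn.iUnion_finite {ι : Type*} [Finite ι] {X : ι → Set E}
    (H : ∀ i, ConicalOn h (X i)) (hc : ∀ i, ∀ x ∈ ⋃ i, X i, x ∈ closure (X i) → x ∈ X i) :
    ConicalOn h (⋃ i, X i) :=
  ConicalOn.iUnion_of_locallyFinite H (fun x _ => ⟨univ, univ_mem, toFinite _⟩) hc

theorem ConicalOn.union (H : ConicalOn h X) (H' : ConicalOn h X')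
    (hc : ∀ x ∈ X' , x ∈ closure X → x ∈ X) (hc' : ∀ x ∈ X, x ∈ closure X' → x ∈ X') :
    ConicalOn h (X ∪ X') := by
  rw [union_eq_iUnion]
  refine ConicalOn.iUnion_finite (fun b => by cases b <;> assumption) ?_
  intro b x hx hcl
  rw [← union_eq_iUnion] at hx
  cases b
  · rcases hx with hx | hx
    · exact hc' x hx hcl
    · exact hx
  · rcases hx with hx | hx
    · exact hx
    · exact hc x hx hcl

/-! algebra -/

theorem conicalWithinAt_of_affine (L : E →ᵃ[ℝ] F) (hX : ConicalSetAt X x) :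
    ConicalWithinAt (fun y => L y) X x := by
  obtain ⟨r, hr, hX⟩ := hX
  refine ⟨r, hr, fun v hv hxv t ht => ⟨hX v hv hxv t ht, ?_⟩⟩
  have h1 : L (x + t • v) = L x + L.linear (t • v) := by
    rw [add_comm x, ← vadd_eq_add, L.map_vadd, vadd_eq_add, add_comm]
  have h2 : L (x + v) = L x + L.linear v := by
    rw [add_comm x, ← vadd_eq_add, L.map_vadd, vadd_eq_add, add_comm]
  show L (x + t • v) = L x + t • (L (x + v) - L x)
  rw [h1, h2, add_sub_cancel_left, map_smul]

theorem conicalOn_of_affine (L : E →ᵃ[ℝ] F) (hX : ConicalSet X) :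
    ConicalOn (fun y => L y) X := fun x hx => conicalWithinAt_of_affine L (hX x hx)

theorem conicalOn_id (hX : ConicalSet X) : ConicalOn (fun y : E => y) X :=
  conicalOn_of_affine (AffineMap.id ℝ E) hX

theorem conicalOn_const (c : F) (hX : ConicalSet X) : ConicalOn (fun _ : E => c) X :=
  conicalOn_of_affine (AffineMap.const ℝ E c) hX

theorem conicalOn_linear (L : E →ₗ[ℝ] F) (hX : ConicalSet X) : ConicalOn (fun y => L y) X :=
  conicalOn_of_affine L.toAffineMap hX

theorem ConicalWithinAt.add {h h' : E → F} (H : ConicalWithinAt h X x)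
    (H' : ConicalWithinAt h' X x) : ConicalWithinAt (fun y => h y + h' y) X x := by
  obtain ⟨r, hr, H⟩ := H
  obtain ⟨s, hs, H'⟩ := H'
  refine ⟨min r s, lt_min hr hs, fun v hv hxv t ht => ?_⟩
  obtain ⟨a1, a2⟩ := H v (hv.trans (min_le_left _ _)) hxv t ht
  obtain ⟨b1, b2⟩ := H' v (hv.trans (min_le_right _ _)) hxv t ht
  refine ⟨a1, ?_⟩
  show h (x + t • v) + h' (x + t • v) = h x + h' x + t • (h (x + v) + h' (x + v) - (h x + h' x))
  rw [a2, b2]
  module

theorem ConicalOn.add {h h' : E → F} (H : ConicalOn h X) (H' : ConicalOn h' X) :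
    ConicalOn (fun y => h y + h' y) X := fun x hx => (H x hx).add (H' x hx)

theorem ConicalWithinAt.const_smul (c : ℝ) (H : ConicalWithinAt h X x) :
    ConicalWithinAt (fun y => c • h y) X x := by
  obtain ⟨r, hr, H⟩ := H
  refine ⟨r, hr, fun v hv hxv t ht => ?_⟩
  obtain ⟨a1, a2⟩ := H v hv hxv t ht
  refine ⟨a1, ?_⟩
  show c • h (x + t • v) = c • h x + t • (c • h (x + v) - c • h x)
  rw [a2]
  module

theorem ConicalOn.const_smul (c : ℝ) (H : ConicalOn h X) :
    ConicalOn (fun y => c • h y) X := fun x hx => (H x hx).const_smul c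

theorem ConicalWithinAt.neg (H : ConicalWithinAt h X x) :
    ConicalWithinAt (fun y => - h y) X x := by
  have := H.const_smul (-1)
  simpa using this

theorem ConicalOn.neg (H : ConicalOn h X) : ConicalOn (fun y => - h y) X :=
  fun x hx => (H x hx).neg

theorem ConicalWithinAt.sub {h h' : E → F} (H : ConicalWithinAt h X x)
    (H' : ConicalWithinAt h' X x) : ConicalWithinAt (fun y => h y - h' y) X x := by
  have := H.add H'.neg
  simpa [sub_eq_add_neg] using this

theorem ConicalOn.sub {h h' : E → F} (H : ConicalOn h X) (H' : ConicalOn h' X) :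
    ConicalOn (fun y => h y - h' y) X := fun x hx => (H x hx).sub (H' x hx)

theorem ConicalWithinAt.prodMk {h : E → F} {h' : E → G} (H : ConicalWithinAt h X x)
    (H' : ConicalWithinAt h' X x) : ConicalWithinAt (fun y => (h y, h' y)) X x := by
  obtain ⟨r, hr, H⟩ := H
  obtain ⟨s, hs, H'⟩ := H'
  refine ⟨min r s, lt_min hr hs, fun v hv hxv t ht => ?_⟩
  obtain ⟨a1, a2⟩ := H v (hv.trans (min_le_left _ _)) hxv t ht
  obtain ⟨b1, b2⟩ := H' v (hv.trans (min_le_right _ _)) hxv t ht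
  refine ⟨a1, ?_⟩
  show (h (x + t • v), h' (x + t • v)) = _
  rw [a2, b2]
  rfl

theorem ConicalOn.prodMk {h : E → F} {h' : E → G} (H : ConicalOn h X) (H' : ConicalOn h' X) :
    ConicalOn (fun y => (h y, h' y)) X := fun x hx => (H x hx).prodMk (H' x hx)

theorem ConicalWithinAt.linear_comp (L : F →ₗ[ℝ] G) (H : ConicalWithinAt h X x) :
    ConicalWithinAt (fun y => L (h y)) X x := by
  obtain ⟨r, hr, H⟩ := H
  refine ⟨r, hr, fun v hv hxv t ht => ?_⟩
  obtain ⟨a1, a2⟩ := H v hv hxv t ht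
  exact ⟨a1, by simp [a2]⟩

theorem ConicalOn.linear_comp (L : F →ₗ[ℝ] G) (H : ConicalOn h X) :
    ConicalOn (fun y => L (h y)) X := fun x hx => (H x hx).linear_comp L

theorem conicalWithinAt_pi {ι : Type*} [Fintype ι] {h : E → ι → ℝ} (hX : ConicalSetAt X x)
    (H : ∀ i, ConicalWithinAt (fun y => h y i) X x) : ConicalWithinAt h X x := by
  classical
  obtain ⟨r0, hr0, hX⟩ := hX
  choose r hr H' using H
  by_cases hι : Nonempty ι
  · refine ⟨min r0 (Finset.univ.inf' Finset.univ_nonempty r), lt_min hr0 ?_,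
      fun v hv hxv t ht => ⟨hX v (hv.trans (min_le_left _ _)) hxv t ht, ?_⟩⟩
    · rw [Finset.lt_inf'_iff]; intro i _; exact hr i
    · ext i
      have := (H' i v (hv.trans ((min_le_right _ _).trans
        (Finset.inf'_le _ (Finset.mem_univ i)))) hxv t ht).2
      simpa using this
  · refine ⟨r0, hr0, fun v hv hxv t ht => ⟨hX v hv hxv t ht, ?_⟩⟩
    ext i
    exact absurd ⟨i⟩ hι

/-- real valued functions: the maximum of two continuous conical functions is conical -/
theorem ConicalWithinAt.rmax {a b : E → ℝ} (ha : ConicalWithinAt a X x)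
    (hb : ConicalWithinAt b X x) (hac : ContinuousWithinAt a X x)
    (hbc : ContinuousWithinAt b X x) :
    ConicalWithinAt (fun y => max (a y) (b y)) X x := by
  wlog hab : a x ≤ b x generalizing a b
  · have := this hb ha hbc hac (le_of_not_ge hab)
    simpa [max_comm] using this
  rcases eq_or_lt_of_le hab with hab | hab
  · obtain ⟨r, hr, H⟩ := ha
    obtain ⟨s, hs, H'⟩ := hb
    refine ⟨min r s, lt_min hr hs, fun v hv hxv t ht => ?_⟩
    obtain ⟨a1, a2⟩ := H v (hv.trans (min_le_left _ _)) hxv t ht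
    obtain ⟨b1, b2⟩ := H' v (hv.trans (min_le_right _ _)) hxv t ht
    refine ⟨a1, ?_⟩
    show max (a (x + t • v)) (b (x + t • v)) =
      max (a x) (b x) + t • (max (a (x + v)) (b (x + v)) - max (a x) (b x))
    rw [a2, b2, hab, max_self, max_add_add_left, ← max_sub_sub_right]
    simp only [smul_eq_mul]
    rw [mul_max_of_nonneg _ _ ht.1]
  · have h1 : ∀ᶠ y in 𝓝[X] x, a y < b y := hac.eventually_lt hbc hab
    obtain ⟨s, hs, H'⟩ := hb
    obtain ⟨ρ, hρ, hbb⟩ := exists_radius_of_nhdsWithin h1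
    refine ⟨min ρ s, lt_min hρ hs, fun v hv hxv t ht => ?_⟩
    obtain ⟨b1, b2⟩ := H' v (hv.trans (min_le_right _ _)) hxv t ht
    have k1 : a (x + v) < b (x + v) := hbb v (hv.trans (min_le_left _ _)) hxv
    have k2 : a (x + t • v) < b (x + t • v) :=
      hbb (t • v) (norm_smul_le_of_mem_Icc ht (hv.trans (min_le_left _ _))) b1
    refine ⟨b1, ?_⟩
    show max (a (x + t • v)) (b (x + t • v)) =
      max (a x) (b x) + t • (max (a (x + v)) (b (x + v)) - max (a x) (b x))
    rw [max_eq_right k1.le, max_eq_right k2.le, max_eq_right hab.le, b2]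

theorem ConicalOn.rmax {a b : E → ℝ} (ha : ConicalOn a X) (hb : ConicalOn b X)
    (hac : ContinuousOn a X) (hbc : ContinuousOn b X) :
    ConicalOn (fun y => max (a y) (b y)) X :=
  fun x hx => (ha x hx).rmax (hb x hx) (hac x hx) (hbc x hx)

theorem ConicalOn.rmin {a b : E → ℝ} (ha : ConicalOn a X) (hb : ConicalOn b X)
    (hac : ContinuousOn a X) (hbc : ContinuousOn b X) :
    ConicalOn (fun y => min (a y) (b y)) X := by
  have := (ha.neg.rmax hb.neg hac.neg hbc.neg).neg
  refine this.congr fun y _ => ?_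
  simp only
  rw [max_neg_neg, neg_neg]

end maps

end P073
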