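import Vale.Agent.P073.ConHomeo

/-!
# P073: examples of conical sets, convex bodies as cones, cones with arbitrary apex,
locally finite gluing of conical homeomorphisms
-/

open Set Metric Topology Filter

namespace P073

variable {E F G : Type*} [NormedAddCommGroup E] [NormedSpace ℝ E]
  [NormedAddCommGroup F] [NormedSpace ℝ F] [NormedAddCommGroup G] [NormedSpace ℝ G]

/-! ### Local cones -/

theorem locConeAt_of_mem_nhds {X : Set E} {x : E} (hX : X ∈ 𝓝 x) : LocConeAt X x :=
  (locConeAt_congr (by filter_upwards [hX] with y hy; simp [hy])).1 (locConeAt_univ x)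

theorem locConeAt_of_compl_mem_nhds {X : Set E} {x : E} (hX : Xᶜ ∈ 𝓝 x) : LocConeAt X x := by
  have := (locConeAt_of_mem_nhds hX).compl
  rwa [compl_compl] at this

/-- level sets of continuous conical functions are local cones -/
theorem locConeAt_preimage {f : E → ℝ} {x : E} (hf : ContinuousAt f x) (hc : ConicalWithinAt f univ x)
    {c : ℝ} : LocConeAt {y | f y < c} x ∧ LocConeAt {y | f y = c} x ∧ LocConeAt {y | f y ≤ c} x := by
  rcases lt_trichotomy (f x) c with h | h | h
  · have h1 : ∀ᶠ y in 𝓝 x, f y < c := hf.eventually_lt_const h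
    refine ⟨locConeAt_of_mem_nhds h1, locConeAt_of_compl_mem_nhds ?_, locConeAt_of_mem_nhds ?_⟩
    · filter_upwards [h1] with y hy
      simp only [mem_compl_iff, mem_ofPred_eq]; exact hy.ne
    · filter_upwards [h1] with y hy; exact hy.le
  · obtain ⟨r, hr, H⟩ := hc
    have key : ∀ v : E, ‖v‖ ≤ r → ∀ t ∈ Ioc (0:ℝ) 1, f (x + t • v) - c = t * (f (x + v) - c) := by
      intro v hv t ht
      have := (H v hv (mem_univ _) t ⟨ht.1.le, ht.2⟩).2
      rw [this, h, smul_eq_mul]; ring
    refine ⟨⟨r, hr, fun v hv t ht => ?_⟩, ⟨r, hr, fun v hv t ht => ?_⟩, ⟨r, hr, fun v hv t ht => ?_⟩⟩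
    · simp only [mem_ofPred_eq]
      rw [← sub_neg, key v hv t ht, ← sub_neg (a := f (x + v))]
      constructor
      · intro h; by_contra h'; push Not at h'; have := mul_nonneg ht.1.le h'; linarith
      · intro h; exact mul_neg_of_pos_of_neg ht.1 h
    · simp only [mem_ofPred_eq]
      rw [← sub_eq_zero, key v hv t ht, ← sub_eq_zero (a := f (x + v)), mul_eq_zero]
      constructor
      · rintro (h | h)
        · exact absurd h ht.1.ne'
        · exact h
      · exact Or.inr
    · simp only [mem_ofPred_eq]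
      rw [← sub_nonpos, key v hv t ht, ← sub_nonpos (a := f (x + v))]
      constructor
      · intro h; by_contra h'; push Not at h'; have := mul_pos ht.1 h'; linarith
      · intro h; exact mul_nonpos_of_nonneg_of_nonpos ht.1.le h
  · have h1 : ∀ᶠ y in 𝓝 x, c < f y := hf.eventually_const_lt h
    refine ⟨locConeAt_of_compl_mem_nhds ?_, locConeAt_of_compl_mem_nhds ?_,
      locConeAt_of_compl_mem_nhds ?_⟩
    · filter_upwards [h1] with y hy
      simp only [mem_compl_iff, mem_ofPred_eq, not_lt]; exact hy.le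
    · filter_upwards [h1] with y hy
      simp only [mem_compl_iff, mem_ofPred_eq]; exact hy.ne'
    · filter_upwards [h1] with y hy
      simp only [mem_compl_iff, mem_ofPred_eq, not_le]; exact hy

theorem locCone_setOf_le {f : E → ℝ} (hf : Continuous f) (hc : ConicalOn f univ) (c : ℝ) :
    LocCone {y | f y ≤ c} := fun x => (locConeAt_preimage hf.continuousAt (hc x (mem_univ x))).2.2

theorem locCone_setOf_lt {f : E → ℝ} (hf : Continuous f) (hc : ConicalOn f univ) (c : ℝ) :
    LocCone {y | f y < c} := fun x => (locConeAt_preimage hf.continuousAt (hc x (mem_univ x))).1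

theorem locCone_setOf_eq {f : E → ℝ} (hf : Continuous f) (hc : ConicalOn f univ) (c : ℝ) :
    LocCone {y | f y = c} := fun x => (locConeAt_preimage hf.continuousAt (hc x (mem_univ x))).2.1

theorem locCone_setOf_ge {f : E → ℝ} (hf : Continuous f) (hc : ConicalOn f univ) (c : ℝ) :
    LocCone {y | c ≤ f y} := by
  have := (locCone_setOf_lt hf hc c).compl
  convert this using 1
  ext y; simp

theorem locCone_setOf_gt {f : E → ℝ} (hf : Continuous f) (hc : ConicalOn f univ) (c : ℝ) :
    LocCone {y | c < f y} := by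
  have := (locCone_setOf_le hf hc c).compl
  convert this using 1
  ext y; simp

theorem conicalOn_clm (f : E →L[ℝ] F) : ConicalOn (fun y => f y) univ :=
  conicalOn_linear f.toLinearMap (IsOpen.conicalSet isOpen_univ)

theorem LocConeAt.iInter_finite {ι : Type*} [Finite ι] {X : ι → Set E} {x : E}
    (h : ∀ i, LocConeAt (X i) x) : LocConeAt (⋂ i, X i) x := by
  have := (LocConeAt.iUnion_finite (X := fun i => (X i)ᶜ) (fun i => (h i).compl)).compl
  rwa [compl_iUnion, iInter_congr (fun i => compl_compl (X i))] at this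

theorem LocCone.iInter_finite {ι : Type*} [Finite ι] {X : ι → Set E}
    (h : ∀ i, LocCone (X i)) : LocCone (⋂ i, X i) :=
  fun x => LocConeAt.iInter_finite fun i => h i x

theorem LocCone.iUnion_finite {ι : Type*} [Finite ι] {X : ι → Set E}
    (h : ∀ i, LocCone (X i)) : LocCone (⋃ i, X i) :=
  fun x => LocConeAt.iUnion_finite fun i => h i x

/-- the closure of a local cone is a local cone -/
theorem LocConeAt.closure {X : Set E} {x : E} (h : LocConeAt X x) : LocConeAt (closure X) x := by
  obtain ⟨r, hr, H⟩ := h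
  -- the scaling map `y ↦ x + t (y - x)`
  have main : ∀ (v : E), ‖v‖ < r → ∀ t ∈ Ioc (0:ℝ) 1, (x + t • v ∈ _root_.closure X ↔
      x + v ∈ _root_.closure X) := by
    intro v hv t ht
    rw [mem_closure_iff_nhds, mem_closure_iff_nhds]
    constructor
    · intro hcl U hU
      -- pull back `U` and intersect with ball
      have hV : {y : E | x + t⁻¹ • (y - x) ∈ U ∧ ‖t⁻¹ • (y - x)‖ < r} ∈ 𝓝 (x + t • v) := by
        have hc1 : Continuous (fun y : E => x + t⁻¹ • (y - x)) := by fun_prop
        have hc2 : Continuous (fun y : E => ‖t⁻¹ • (y - x)‖) := by fun_prop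
        have e1 : x + t⁻¹ • (x + t • v - x) = x + v := by
          rw [add_sub_cancel_left, smul_smul, inv_mul_cancel₀ ht.1.ne', one_smul]
        have e2 : t⁻¹ • (x + t • v - x) = v := by
          rw [add_sub_cancel_left, smul_smul, inv_mul_cancel₀ ht.1.ne', one_smul]
        refine Filter.inter_mem (hc1.continuousAt.preimage_mem_nhds (by rw [e1]; exact hU)) ?_
        exact hc2.continuousAt.eventually_lt_const (show ‖t⁻¹ • (x + t • v - x)‖ < r by
          rw [e2]; exact hv)
      obtain ⟨y, ⟨hyU, hyr⟩, hyX⟩ := hcl _ hV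
      refine ⟨x + t⁻¹ • (y - x), hyU, ?_⟩
      rw [← H _ hyr.le t ht, smul_smul, mul_inv_cancel₀ ht.1.ne', one_smul, add_sub_cancel]
      exact hyX
    · intro hcl U hU
      have hV : {y : E | x + t • (y - x) ∈ U ∧ ‖y - x‖ < r} ∈ 𝓝 (x + v) := by
        have hc1 : Continuous (fun y : E => x + t • (y - x)) := by fun_prop
        have hc2 : Continuous (fun y : E => ‖y - x‖) := by fun_prop
        refine Filter.inter_mem (hc1.continuousAt.preimage_mem_nhds
          (by rw [add_sub_cancel_left]; exact hU)) ?_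
        exact hc2.continuousAt.eventually_lt_const (show ‖x + v - x‖ < r by
          rw [add_sub_cancel_left]; exact hv)
      obtain ⟨y, ⟨hyU, hyr⟩, hyX⟩ := hcl _ hV
      refine ⟨x + t • (y - x), hyU, ?_⟩
      rw [H _ hyr.le t ht, add_sub_cancel]
      exact hyX
  exact ⟨r / 2, half_pos hr, fun v hv t ht => main v (by linarith) t ht⟩

theorem LocCone.closure {X : Set E} (h : LocCone X) : LocCone (closure X) := fun x => (h x).closure

theorem LocConeAt.interior {X : Set E} {x : E} (h : LocConeAt X x) :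
    LocConeAt (interior X) x := by
  have := h.compl.closure.compl
  rwa [closure_compl, compl_compl] at this

theorem LocCone.interior {X : Set E} (h : LocCone X) : LocCone (interior X) :=
  fun x => (h x).interior

theorem LocCone.frontier {X : Set E} (h : LocCone X) : LocCone (frontier X) := by
  rw [frontier_eq_closure_inter_closure]
  exact h.closure.inter h.compl.closure

theorem LocCone.conicalOn_id {X : Set E} (h : LocCone X) : ConicalOn (fun y : E => y) X :=
  P073.conicalOn_id h.conicalSet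

/-- the image of a local cone under an ambient conical homeomorphism of the whole space -/
theorem LocCone.image {X : Set E} (hX : LocCone X) (h : ConHomeo (univ : Set E) (univ : Set F)) :
    LocCone (h.toFun '' X) := by
  intro y
  obtain ⟨r, hr, H⟩ := hX (h.invFun y)
  obtain ⟨s, hs, H'⟩ := h.conical_inv y (mem_univ y)
  have hcont : ∀ᶠ z in 𝓝[univ] y, h.invFun z ∈ closedBall (h.invFun y) r :=
    (h.cont_inv y (mem_univ y)) (closedBall_mem_nhds _ hr)
  obtain ⟨ρ, hρ, hb⟩ := exists_radius_of_nhdsWithin hcont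
  refine ⟨min s ρ, lt_min hs hρ, fun u hu t ht => ?_⟩
  have hu2 : ‖h.invFun (y + u) - h.invFun y‖ ≤ r := by
    have := hb u (hu.trans (min_le_right _ _)) (mem_univ _)
    rwa [mem_closedBall, dist_eq_norm] at this
  have hmem : ∀ z : F, z ∈ h.toFun '' X ↔ h.invFun z ∈ X := by
    intro z
    constructor
    · rintro ⟨x, hx, rfl⟩; rw [h.left_inv (mem_univ x)]; exact hx
    · intro hz; exact ⟨_, hz, h.right_inv (mem_univ z)⟩
  rw [hmem, hmem, (H' u (hu.trans (min_le_left _ _)) (mem_univ _) t ⟨ht.1.le, ht.2⟩).2,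
    H _ hu2 t ht, add_sub_cancel]

/-! ### Boxes -/

theorem locCone_Icc_pi {ι : Type*} [Fintype ι] (a b : ι → ℝ) : LocCone (Icc a b) := by
  have : Icc a b = ⋂ i : ι, ({x : ι → ℝ | a i ≤ x i} ∩ {x : ι → ℝ | x i ≤ b i}) := by
    ext x
    simp only [mem_Icc, Pi.le_def, mem_iInter, mem_inter_iff, mem_ofPred_eq]
    constructor
    · rintro ⟨h1, h2⟩ i; exact ⟨h1 i, h2 i⟩
    · intro h; exact ⟨fun i => (h i).1, fun i => (h i).2⟩
  rw [this]
  refine LocCone.iInter_finite fun i => ?_
  have hc : ConicalOn (fun x : ι → ℝ => x i) univ :=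
    conicalOn_clm (ContinuousLinearMap.proj (R := ℝ) (φ := fun _ : ι => ℝ) i)
  exact (locCone_setOf_ge (continuous_apply i) hc (a i)).inter
    (locCone_setOf_le (continuous_apply i) hc (b i))

/-! ### Convex bodies -/

theorem rayBase_frontier {K : Set E} (hK : IsCompact K) (hc : Convex ℝ K) (h0 : K ∈ 𝓝 0) :
    RayBase (frontier K) := by
  have h0i : (0:E) ∈ interior K := mem_interior_iff_mem_nhds.2 h0
  refine ⟨hK.of_isClosed_subset isClosed_frontier hK.isClosed.frontier_subset, fun h => ?_, ?_⟩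
  · exact h.2 h0i
  · intro x hx s hs hsx
    rw [← gauge_eq_one_iff_mem_frontier hc h0] at hx hsx
    rw [gauge_smul_of_nonneg hs.le, hx, smul_eq_mul, mul_one] at hsx
    exact hsx

theorem coneSet_frontier {K : Set E} [Nontrivial E] (hK : IsCompact K) (hc : Convex ℝ K)
    (h0 : K ∈ 𝓝 0) : coneSet (frontier K) = K := by
  have hbdd : Bornology.IsBounded K := hK.isBounded
  have habs : Absorbent ℝ K := absorbent_nhds_zero h0
  have hpos : ∀ y : E, y ≠ 0 → 0 < gauge K y := fun y hy =>
    (gauge_pos habs ((NormedSpace.isVonNBounded_iff ℝ).2 hbdd)).2 hy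
  have hfr : ∀ y : E, y ≠ 0 → (gauge K y)⁻¹ • y ∈ frontier K := by
    intro y hy
    rw [← gauge_eq_one_iff_mem_frontier hc h0, gauge_smul_of_nonneg (inv_nonneg.2 (hpos y hy).le),
      smul_eq_mul, inv_mul_cancel₀ (hpos y hy).ne']
  have hle : ∀ y, y ∈ K ↔ gauge K y ≤ 1 := by
    intro y
    rw [gauge_le_one_iff_mem_closure hc h0, hK.isClosed.closure_eq]
  ext y
  constructor
  · rintro ⟨s, hs, x, hx, rfl⟩
    rw [hle, gauge_smul_of_nonneg hs.1, (gauge_eq_one_iff_mem_frontier hc h0).2 hx, smul_eq_mul,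
      mul_one]
    exact hs.2
  · intro hy
    by_cases hy0 : y = 0
    · obtain ⟨z, hz⟩ := exists_ne (0:E)
      exact ⟨0, ⟨le_refl _, zero_le_one⟩, _, hfr z hz, by rw [hy0, zero_smul]⟩
    · refine ⟨gauge K y, ⟨gauge_nonneg _, (hle y).1 hy⟩, _, hfr y hy0, ?_⟩
      rw [smul_smul, mul_inv_cancel₀ (hpos y hy0).ne', one_smul]

/-! ### Affine homeomorphisms, cones with arbitrary apex -/

/-- restriction of a continuous affine equivalence -/
def ConHomeo.ofAffine (L : E ≃ᴬ[ℝ] F) {X : Set E} (hX : ConicalSet X) : ConHomeo X (L '' X) where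
  toFun := L
  invFun := L.symm
  mapsTo := mapsTo_image _ _
  mapsTo_inv := by
    rintro _ ⟨x, hx, rfl⟩
    rw [L.symm_apply_apply]; exact hx
  left_inv := fun x _ => L.symm_apply_apply x
  right_inv := fun x _ => L.apply_symm_apply x
  cont := L.continuous.continuousOn
  cont_inv := L.symm.continuous.continuousOn
  conical := conicalOn_of_affine L.toAffineEquiv.toAffineMap hX

/-- translation -/
def ConHomeo.translate (a : E) {X : Set E} (hX : ConicalSet X) :
    ConHomeo X ((fun x => x + a) '' X) where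
  toFun := fun x => x + a
  invFun := fun x => x - a
  mapsTo := mapsTo_image _ _
  mapsTo_inv := by
    rintro _ ⟨x, hx, rfl⟩
    simpa using hx
  left_inv := fun x _ => by simp
  right_inv := fun x _ => by simp
  cont := by fun_prop
  cont_inv := by fun_prop
  conical := (conicalOn_id hX).add (conicalOn_const a hX)

@[simp] theorem ConHomeo.translate_toFun (a : E) {X : Set E} (hX : ConicalSet X) (x : E) :
    (ConHomeo.translate a hX).toFun x = x + a := rfl

/-- the cone with apex `a` over `X` -/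
def coneSetAt (a : E) (X : Set E) : Set E := {y | ∃ s ∈ Icc (0:ℝ) 1, ∃ x ∈ X, y = a + s • (x - a)}

theorem coneSetAt_eq (a : E) (X : Set E) :
    coneSetAt a X = (fun x => x + a) '' coneSet ((fun x => x + (-a)) '' X) := by
  ext y
  constructor
  · rintro ⟨s, hs, x, hx, rfl⟩
    exact ⟨s • (x + -a), ⟨s, hs, _, ⟨x, hx, rfl⟩, rfl⟩, by
      show s • (x + -a) + a = _
      rw [sub_eq_add_neg, add_comm]⟩
  · rintro ⟨_, ⟨s, hs, _, ⟨x, hx, rfl⟩, rfl⟩, rfl⟩
    exact ⟨s, hs, x, hx, by rw [sub_eq_add_neg, add_comm]⟩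

/-- base for coning from the apex `a` -/
def RayBaseAt (a : E) (X : Set E) : Prop := RayBase ((fun x => x + (-a)) '' X)

theorem rayBaseAt_iff {a : E} {X : Set E} : RayBaseAt a X ↔ (IsCompact X ∧ a ∉ X ∧
    ∀ x ∈ X, ∀ s : ℝ, 0 < s → a + s • (x - a) ∈ X → s = 1) := by
  constructor
  · intro h
    refine ⟨?_, fun ha => h.zero_notMem ⟨a, ha, by simp⟩, fun x hx s hs hsx => ?_⟩
    · have := h.compact.image (f := fun x => x + a) (by fun_prop)
      rwa [image_image, image_congr (g := id) (fun x _ => by simp), image_id] at this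
    · exact h.ray (x + -a) ⟨x, hx, rfl⟩ s hs ⟨_, hsx, by
        show a + s • (x - a) + -a = s • (x + -a)
        rw [← sub_eq_add_neg x a]; abel⟩
  · rintro ⟨h1, h2, h3⟩
    refine ⟨h1.image (by fun_prop), ?_, ?_⟩
    · rintro ⟨x, hx, h⟩
      apply h2
      have : x = a := by
        have h' : x - a = 0 := by rw [sub_eq_add_neg]; exact h
        exact sub_eq_zero.1 h'
      exact this ▸ hx
    · rintro _ ⟨x, hx, rfl⟩ s hs ⟨y, hy, hyx⟩
      apply h3 x hx s hs
      have : a + s • (x - a) = y := by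
        simp only at hyx
        rw [← sub_eq_add_neg, ← sub_eq_add_neg] at hyx
        rw [← hyx]; abel
      rw [this]; exact hy

theorem RayBaseAt.mono {a : E} {X X' : Set E} (h : RayBaseAt a X) (hc : IsCompact X')
    (hsub : X' ⊆ X) : RayBaseAt a X' := by
  rw [rayBaseAt_iff] at h ⊢
  exact ⟨hc, fun h0 => h.2.1 (hsub h0), fun x hx s hs hsx => h.2.2 x (hsub hx) s hs (hsub hsx)⟩

/-- coning with arbitrary apices `a ↦ b` -/
noncomputable def ConHomeo.coneAt {a : E} {b : F} {X : Set E} {Y : Set F} (hX : RayBaseAt a X)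
    (hY : RayBaseAt b Y) (φ : ConHomeo X Y) : ConHomeo (coneSetAt a X) (coneSetAt b Y) := by
  have hXc : ConicalSet X := φ.conicalSet_left
  have hYc : ConicalSet Y := φ.conicalSet_right
  let τX := ConHomeo.translate (-a) hXc
  let τY := ConHomeo.translate (-b) hYc
  let ψ := ConHomeo.cone hX hY (τX.symm.trans (φ.trans τY))
  let σX := ConHomeo.translate a ψ.conicalSet_left
  let σY := ConHomeo.translate b ψ.conicalSet_right
  exact (σX.symm.trans (ψ.trans σY)).cast (coneSetAt_eq a X).symm (coneSetAt_eq b Y).symm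

theorem ConHomeo.coneAt_apply {a : E} {b : F} {X : Set E} {Y : Set F} (hX : RayBaseAt a X)
    (hY : RayBaseAt b Y) (φ : ConHomeo X Y) {s : ℝ} (hs : s ∈ Icc (0:ℝ) 1) {x : E} (hx : x ∈ X) :
    (ConHomeo.coneAt hX hY φ).toFun (a + s • (x - a)) = b + s • (φ.toFun x - b) := by
  have hx' : x + (-a) ∈ (fun x => x + (-a)) '' X := ⟨x, hx, rfl⟩
  have h1 : a + s • (x - a) - a = s • (x + (-a)) := by rw [add_sub_cancel_left, sub_eq_add_neg]
  show (ConHomeo.cone hX hY _).toFun (a + s • (x - a) - a) + b = _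
  rw [h1, ConHomeo.cone_smul hX hY _ hs hx']
  show s • (φ.toFun (x + -a - -a) + -b) + b = _
  rw [sub_neg_eq_add, neg_add_cancel_right, ← sub_eq_add_neg, add_comm]

theorem ConHomeo.coneAt_eqOn {a : E} {b : F} {X : Set E} {Y : Set F} (hX : RayBaseAt a X)
    (hY : RayBaseAt b Y) (φ : ConHomeo X Y) :
    EqOn (ConHomeo.coneAt hX hY φ).toFun φ.toFun X := by
  intro x hx
  have := ConHomeo.coneAt_apply hX hY φ (s := 1) ⟨zero_le_one, le_refl _⟩ hx
  simpa using this

theorem ConHomeo.coneAt_apex {a : E} {b : F} {X : Set E} {Y : Set F} (hX : RayBaseAt a X)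
    (hY : RayBaseAt b Y) (φ : ConHomeo X Y) (hne : X.Nonempty) :
    (ConHomeo.coneAt hX hY φ).toFun a = b := by
  obtain ⟨x, hx⟩ := hne
  have := ConHomeo.coneAt_apply hX hY φ (s := 0) ⟨le_refl _, zero_le_one⟩ hx
  simpa using this

theorem rayBaseAt_frontier {K : Set E} {a : E} (hK : IsCompact K) (hc : Convex ℝ K)
    (ha : K ∈ 𝓝 a) : RayBaseAt a (frontier K) := by
  have h1 : (fun x => x + (-a)) '' frontier K = frontier ((fun x => x + (-a)) '' K) :=
    (Homeomorph.addRight (-a)).image_frontier K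
  unfold RayBaseAt
  rw [h1]
  refine rayBase_frontier (hK.image (by fun_prop)) ?_ ?_
  · have := hc.translate (-a)
    convert this using 1
    ext y; simp [add_comm]
  · have := (Homeomorph.addRight (-a)).isOpenMap.image_mem_nhds ha
    simpa using this

theorem coneSetAt_frontier {K : Set E} [Nontrivial E] {a : E} (hK : IsCompact K)
    (hc : Convex ℝ K) (ha : K ∈ 𝓝 a) : coneSetAt a (frontier K) = K := by
  have h1 : (fun x => x + (-a)) '' frontier K = frontier ((fun x => x + (-a)) '' K) :=
    (Homeomorph.addRight (-a)).image_frontier K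
  rw [coneSetAt_eq, h1, coneSet_frontier (hK.image (by fun_prop))]
  · rw [image_image]; simp
  · have := hc.translate (-a)
    convert this using 1
    ext y; simp [add_comm]
  · have := (Homeomorph.addRight (-a)).isOpenMap.image_mem_nhds ha
    simpa using this

/-- **Alexander trick / coning for convex bodies**: a conical homeomorphism of the frontiers of
two compact convex bodies extends to the bodies -/
theorem ConHomeo.exists_extend_convexBody [Nontrivial E] [Nontrivial F] {K : Set E} {L : Set F}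
    (hK : IsCompact K) (hKc : Convex ℝ K) {a : E} (ha : K ∈ 𝓝 a)
    (hL : IsCompact L) (hLc : Convex ℝ L) {b : F} (hb : L ∈ 𝓝 b)
    (φ : ConHomeo (frontier K) (frontier L)) :
    ∃ Φ : ConHomeo K L, EqOn Φ.toFun φ.toFun (frontier K) ∧
      ∀ x ∈ frontier K, ∀ s ∈ Icc (0:ℝ) 1, Φ.toFun (a + s • (x - a)) = b + s • (φ.toFun x - b) := by
  refine ⟨(ConHomeo.coneAt (rayBaseAt_frontier hK hKc ha) (rayBaseAt_frontier hL hLc hb) φ).cast
    (coneSetAt_frontier hK hKc ha) (coneSetAt_frontier hL hLc hb), ?_, ?_⟩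
  · exact ConHomeo.coneAt_eqOn _ _ φ
  · intro x hx s hs
    exact ConHomeo.coneAt_apply _ _ φ hs hx

end P073
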