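import Vale.Agent.P073.ConicalStrata2

/-!
# P073: crease maps and the crease radius of a conical map
-/

open Set Metric Topology Filter MeasureTheory

namespace P073

variable {E F : Type*} [NormedAddCommGroup E] [NormedSpace ℝ E]
  [NormedAddCommGroup F] [NormedSpace ℝ F]

/-- `h` is a crease map on `U`: two affine maps glued along a hyperplane (possibly one affine
map) -/
def IsCreaseOn (h : E → F) (U : Set E) : Prop :=
  ∃ (L : E →L[ℝ] F) (b : F) (ℓ : E →L[ℝ] ℝ) (a : ℝ) (c : F),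
    ∀ y ∈ U, h y = b + L y + (max (ℓ y - a) 0) • c

theorem IsCreaseOn.mono {h : E → F} {U U' : Set E} (H : IsCreaseOn h U) (hs : U' ⊆ U) :
    IsCreaseOn h U' := by
  obtain ⟨L, b, ℓ, a, c, H⟩ := H
  exact ⟨L, b, ℓ, a, c, fun y hy => H y (hs hy)⟩

theorem isCreaseOn_empty (h : E → F) : IsCreaseOn h ∅ :=
  ⟨0, 0, 0, 0, 0, fun _ hy => absurd hy (notMem_empty _)⟩

/-- scaling of a crease towards the cone point -/
theorem IsCreaseOn.scale {h : E → F} {x₀ : E} (H0 : ConicalAt h x₀) {r₀ : ℝ}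
    (hform : ∀ v : E, ‖v‖ ≤ r₀ → h (x₀ + v) = h x₀ + tcone h x₀ v) {v : E} {ρ : ℝ}
    (hsub : ball (x₀ + v) ρ ⊆ ball x₀ r₀) (H : IsCreaseOn h (ball (x₀ + v) ρ)) {t : ℝ}
    (ht : t ∈ Ioc (0:ℝ) 1) : IsCreaseOn h (ball (x₀ + t • v) (t * ρ)) := by
  obtain ⟨L, b, ℓ, a, c, H⟩ := H
  -- for y in the small ball, y = x₀ + t z with x₀ + z in the large ball
  refine ⟨L, (1 - t) • (h x₀) + t • b + (t - 1) • L x₀, ℓ, t * a + (1 - t) * ℓ x₀, c,
    fun y hy => ?_⟩
  set z : E := t⁻¹ • (y - x₀) with hz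
  have hy' : y = x₀ + t • z := by
    rw [hz, smul_smul, mul_inv_cancel₀ ht.1.ne', one_smul]; abel
  have hzball : x₀ + z ∈ ball (x₀ + v) ρ := by
    rw [mem_ball, dist_eq_norm] at hy ⊢
    have h1 : y - (x₀ + t • v) = t • (x₀ + z - (x₀ + v)) := by rw [hy']; module
    rw [h1, norm_smul, Real.norm_of_nonneg ht.1.le] at hy
    exact lt_of_mul_lt_mul_left hy ht.1.le
  have hz1 := H _ hzball
  have hz2 : ‖z‖ < r₀ := by
    have := hsub hzball
    rwa [mem_ball, dist_eq_norm, add_sub_cancel_left] at this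
  have hf1 := hform z hz2.le
  have htz : ‖t • z‖ ≤ r₀ := norm_smul_le_of_mem_Icc ⟨ht.1.le, ht.2⟩ hz2.le
  have hf2 := hform (t • z) htz
  rw [H0.tcone_smul ht.1.le] at hf2
  have hC : tcone h x₀ z = b + L (x₀ + z) + (max (ℓ (x₀ + z) - a) 0) • c - h x₀ := by
    rw [← hz1, hf1]; abel
  have hmax : max (ℓ y - (t * a + (1 - t) * ℓ x₀)) 0 = t * max (ℓ (x₀ + z) - a) 0 := by
    have : ℓ y - (t * a + (1 - t) * ℓ x₀) = t * (ℓ (x₀ + z) - a) := by
      rw [hy', map_add, map_smul, map_add, smul_eq_mul]; ring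
    rw [this, mul_max_of_nonneg _ _ ht.1.le, mul_zero]
  have e1 : L (x₀ + z) = L x₀ + L z := map_add _ _ _
  have e2 : L (x₀ + t • z) = L x₀ + t • L z := by rw [map_add, map_smul]
  rw [hmax, hy', hf2, hC, e1, e2]
  module

/-- translation of a crease along the linearity space -/
theorem IsCreaseOn.translate {h : E → F} {x₀ : E} {r₀ : ℝ}
    (hform : ∀ v : E, ‖v‖ ≤ r₀ → h (x₀ + v) = h x₀ + tcone h x₀ v) {v u : E} {ρ : ℝ}
    (hsub : ball (x₀ + v) ρ ⊆ ball x₀ r₀) (hsub' : ball (x₀ + v + u) ρ ⊆ ball x₀ r₀)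
    (hu : u ∈ linSpace h x₀) (H : IsCreaseOn h (ball (x₀ + v) ρ)) :
    IsCreaseOn h (ball (x₀ + v + u) ρ) := by
  obtain ⟨L, b, ℓ, a, c, H⟩ := H
  refine ⟨L, b - L u + tcone h x₀ u, ℓ, a + ℓ u, c, fun y hy => ?_⟩
  have hyb : y - u ∈ ball (x₀ + v) ρ := by
    rw [mem_ball, dist_eq_norm] at hy ⊢
    convert hy using 2; abel
  have h1 := H _ hyb
  have hyr := hsub' hy
  have hyur := hsub hyb
  rw [mem_ball, dist_eq_norm] at hyr hyur
  have f1 := hform (y - x₀) hyr.le
  have f2 := hform (y - u - x₀) hyur.le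
  rw [add_sub_cancel] at f1 f2
  have f3 : tcone h x₀ (y - x₀) = tcone h x₀ (y - u - x₀) + tcone h x₀ u := by
    rw [← tcone_add_of_mem hu]; congr 1; abel
  have f4 : h y = h (y - u) + tcone h x₀ u := by rw [f1, f2, f3]; abel
  have f5 : ℓ (y - u) - a = ℓ y - (a + ℓ u) := by rw [map_sub]; ring
  rw [f4, h1, f5, map_sub]
  abel

/-- the crease radius -/
noncomputable def creaseRad (h : E → F) (Ω : Set E) (x : E) : ℝ :=
  sSup {r : ℝ | 0 ≤ r ∧ r ≤ 1 ∧ ball x r ⊆ Ω ∧ IsCreaseOn h (ball x r)}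

section creaseRad

variable {h : E → F} {Ω : Set E}

theorem creaseRad_set_nonempty (h : E → F) (Ω : Set E) (x : E) :
    (0:ℝ) ∈ {r : ℝ | 0 ≤ r ∧ r ≤ 1 ∧ ball x r ⊆ Ω ∧ IsCreaseOn h (ball x r)} := by
  refine ⟨le_refl _, zero_le_one, ?_, ?_⟩
  · rw [ball_zero]; exact empty_subset _
  · rw [ball_zero]; exact isCreaseOn_empty h

theorem creaseRad_bddAbove (h : E → F) (Ω : Set E) (x : E) :
    BddAbove {r : ℝ | 0 ≤ r ∧ r ≤ 1 ∧ ball x r ⊆ Ω ∧ IsCreaseOn h (ball x r)} :=
  ⟨1, fun _ hr => hr.2.1⟩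

theorem creaseRad_nonneg (h : E → F) (Ω : Set E) (x : E) : 0 ≤ creaseRad h Ω x :=
  le_csSup (creaseRad_bddAbove h Ω x) (creaseRad_set_nonempty h Ω x)

theorem creaseRad_le_one (h : E → F) (Ω : Set E) (x : E) : creaseRad h Ω x ≤ 1 :=
  csSup_le ⟨0, creaseRad_set_nonempty h Ω x⟩ fun _ hr => hr.2.1

theorem le_creaseRad {x : E} {r : ℝ} (h0 : 0 ≤ r) (h1 : r ≤ 1) (hb : ball x r ⊆ Ω)
    (hc : IsCreaseOn h (ball x r)) : r ≤ creaseRad h Ω x :=
  le_csSup (creaseRad_bddAbove h Ω x) ⟨h0, h1, hb, hc⟩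

theorem creaseRad_spec {x : E} {r : ℝ} (hr : r < creaseRad h Ω x) :
    ball x r ⊆ Ω ∧ IsCreaseOn h (ball x r) := by
  obtain ⟨s, hs, hrs⟩ := exists_lt_of_lt_csSup ⟨0, creaseRad_set_nonempty h Ω x⟩ hr
  exact ⟨(ball_subset_ball hrs.le).trans hs.2.2.1, hs.2.2.2.mono (ball_subset_ball hrs.le)⟩

/-- the crease radius is 1-Lipschitz -/
theorem creaseRad_sub_le (x y : E) : creaseRad h Ω x - dist x y ≤ creaseRad h Ω y := by
  by_cases hneg : creaseRad h Ω x ≤ dist x y
  · linarith [creaseRad_nonneg h Ω y]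
  push Not at hneg
  apply le_of_forall_lt
  intro s hs
  -- choose r with s + dist < r < creaseRad x
  by_cases hs0 : s < 0
  · exact hs0.trans_le (creaseRad_nonneg h Ω y)
  push Not at hs0
  have h1 : s + dist x y < creaseRad h Ω x := by linarith
  obtain ⟨r, hr1, hr2⟩ := exists_between h1
  obtain ⟨hb, hc⟩ := creaseRad_spec hr2
  have hsub : ball y (r - dist x y) ⊆ ball x r := by
    apply ball_subset_ball'
    rw [dist_comm y x]; linarith
  have h2 : r - dist x y ≤ creaseRad h Ω y := by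
    refine le_creaseRad (by linarith) ?_ (hsub.trans hb) (hc.mono hsub)
    have := creaseRad_le_one h Ω x
    have := dist_nonneg (x := x) (y := y)
    linarith
  linarith

theorem creaseRad_lipschitz : LipschitzWith 1 (creaseRad h Ω) := by
  refine LipschitzWith.of_dist_le_mul fun x y => ?_
  rw [NNReal.coe_one, one_mul, Real.dist_eq, abs_sub_le_iff]
  constructor
  · have := creaseRad_sub_le (h := h) (Ω := Ω) x y; linarith
  · have := creaseRad_sub_le (h := h) (Ω := Ω) y x
    rw [dist_comm y x] at this; linarith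

theorem mem_of_creaseRad_pos {x : E} (hx : 0 < creaseRad h Ω x) : x ∈ Ω :=
  (creaseRad_spec (h := h) (Ω := Ω) (r := creaseRad h Ω x / 2) (by linarith)).1
    (mem_ball_self (by linarith))

/-- positivity of the crease radius in codimension `≤ 1` -/
theorem creaseRad_pos [FiniteDimensional ℝ E] (hΩ : IsOpen Ω) (H : ConicalOn h Ω) {x : E}
    (hx : x ∈ Ω) (hk : Module.finrank ℝ E ≤ Module.finrank ℝ (linSpace h x) + 1) :
    0 < creaseRad h Ω x := by
  have Hx := H.conicalAt hΩ hx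
  obtain ⟨r, hr, hb, hform, -, -, -⟩ := exists_stratum_nhd hΩ H hx
  have key : IsCreaseOn h (ball x r) := by
    by_cases htop : linSpace h x = ⊤
    · obtain ⟨L, hL⟩ := tcone_isLinear_of_finrank_eq (h := h) (x := x) (by rw [htop, finrank_top])
      refine ⟨LinearMap.toContinuousLinearMap L, h x - L x, 0, 0, 0, fun y hy => ?_⟩
      rw [mem_ball, dist_eq_norm] at hy
      have := hform (y - x) hy.le
      rw [add_sub_cancel] at this
      rw [this, hL, map_sub]
      simp
      abel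
    · -- choose a vector outside the hyperplane
      obtain ⟨n, -, hn⟩ := SetLike.exists_of_lt (lt_top_iff_ne_top.2 htop)
      have hn0 : n ≠ 0 := fun h0 => hn (h0 ▸ Submodule.zero_mem _)
      have hcompl : IsCompl (linSpace h x) (ℝ ∙ n) := by
        constructor
        · rw [Submodule.disjoint_def]
          intro y hy hy2
          obtain ⟨a, rfl⟩ := Submodule.mem_span_singleton.1 hy2
          by_cases ha : a = 0
          · rw [ha, zero_smul]
          · exact absurd ((Submodule.smul_mem_iff _ ha).1 hy) hn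
        · rw [codisjoint_iff]
          apply Submodule.eq_top_of_finrank_eq
          have hinf : (linSpace h x) ⊓ (ℝ ∙ n) = ⊥ := by
            rw [Submodule.eq_bot_iff]
            rintro y ⟨hy, hy2⟩
            obtain ⟨a, rfl⟩ := Submodule.mem_span_singleton.1 hy2
            by_cases ha : a = 0
            · rw [ha, zero_smul]
            · exact absurd ((Submodule.smul_mem_iff _ ha).1 hy) hn
          have hfr := Submodule.finrank_sup_add_finrank_inf_eq (linSpace h x) (ℝ ∙ n)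
          rw [hinf, finrank_bot, add_zero, finrank_span_singleton hn0] at hfr
          have hle : Module.finrank ℝ ((linSpace h x) ⊔ (ℝ ∙ n) : Submodule ℝ E) ≤
            Module.finrank ℝ E := Submodule.finrank_le _
          omega
      -- coordinates
      obtain ⟨ℓ, hℓ⟩ : ∃ ℓ : E →ₗ[ℝ] ℝ, ∀ v, v - ℓ v • n ∈ linSpace h x := by
        let P := (ℝ ∙ n).projection (linSpace h x) hcompl.symm
        have hP1 : ∀ v, P v ∈ (ℝ ∙ n) := fun v => by
          rw [← Submodule.coe_projectionOnto_apply]; exact Subtype.coe_prop _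
        have hP2 : ∀ v, v - P v ∈ linSpace h x := fun v => by
          rw [← Submodule.projectionOnto_apply_eq_zero_iff hcompl.symm, map_sub,
            Submodule.projectionOnto_projection, sub_self]
        let e := (LinearEquiv.toSpanNonzeroSingleton ℝ E n hn0).symm
        refine ⟨e.toLinearMap.comp (LinearMap.codRestrict (ℝ ∙ n) P hP1), fun v => ?_⟩
        have h1 : (e (LinearMap.codRestrict (ℝ ∙ n) P hP1 v)) • n = P v := by
          have h2 := LinearEquiv.toSpanNonzeroSingleton_apply ℝ E n hn0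
            (e (LinearMap.codRestrict (ℝ ∙ n) P hP1 v))
          have h3 : LinearEquiv.toSpanNonzeroSingleton ℝ E n hn0
            (e (LinearMap.codRestrict (ℝ ∙ n) P hP1 v)) = LinearMap.codRestrict (ℝ ∙ n) P hP1 v :=
            LinearEquiv.apply_symm_apply _ _
          rw [h3] at h2
          have h4 := congrArg Subtype.val h2
          simpa using h4.symm
        show v - (e (LinearMap.codRestrict (ℝ ∙ n) P hP1 v)) • n ∈ linSpace h x
        rw [h1]; exact hP2 v
      -- the linear map on the negative side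
      -- `tcone v = T (v - ℓ v n) + max (ℓ v) 0 • a + max (-ℓ v) 0 • b`
      set p := tcone h x n with hp
      set q := tcone h x (-n) with hq
      let A : E →ₗ[ℝ] linSpace h x := LinearMap.codRestrict (linSpace h x)
        (LinearMap.id - ℓ.smulRight n) (fun v => by simpa using hℓ v)
      let L : E →ₗ[ℝ] F := (tconeLin h x).comp A - ℓ.smulRight q
      refine ⟨LinearMap.toContinuousLinearMap L, h x - L x, LinearMap.toContinuousLinearMap ℓ,
        ℓ x, p + q, fun y hy => ?_⟩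
      rw [mem_ball, dist_eq_norm] at hy
      have h1 := hform (y - x) hy.le
      rw [add_sub_cancel] at h1
      have h2 : y - x = ((y - x) - ℓ (y - x) • n) + ℓ (y - x) • n := by abel
      have h3 : tcone h x (y - x) = tcone h x ((y - x) - ℓ (y - x) • n) +
          (max (ℓ (y - x)) 0) • p + (max (-ℓ (y - x)) 0) • q := by
        conv_lhs => rw [h2]
        rw [tcone_codim_one Hx (hℓ (y - x))]
      have h4 : L (y - x) = tcone h x ((y - x) - ℓ (y - x) • n) - ℓ (y - x) • q := by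
        rfl
      have h5 : (max (-ℓ (y - x)) 0 : ℝ) = max (ℓ (y - x)) 0 - ℓ (y - x) := by
        rcases le_total 0 (ℓ (y - x)) with h | h
        · rw [max_eq_left h, max_eq_right (neg_nonpos.2 h)]; ring
        · rw [max_eq_right h, max_eq_left (neg_nonneg.2 h)]; ring
      have h6 : L y = L x + L (y - x) := by rw [← map_add]; congr 1; abel
      show h y = h x - L x + L y + max (ℓ y - ℓ x) 0 • (p + q)
      rw [h1, h3, h5, h6, h4, ← map_sub]
      module
  obtain ⟨hr1, hr2⟩ : min r 1 ≤ r ∧ min r 1 ≤ 1 := ⟨min_le_left _ _, min_le_right _ _⟩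
  have hpos : 0 < min r 1 := lt_min hr one_pos
  exact hpos.trans_le (le_creaseRad hpos.le hr2 ((ball_subset_ball hr1).trans hb)
    (key.mono (ball_subset_ball hr1)))

/-- homogeneous lower bound for the crease radius along rays from `x₀` -/
theorem creaseRad_scale {x₀ : E} (H0 : ConicalAt h x₀) {r₀ : ℝ} (hb : ball x₀ r₀ ⊆ Ω)
    (hform : ∀ v : E, ‖v‖ ≤ r₀ → h (x₀ + v) = h x₀ + tcone h x₀ v) {v : E} (hv : ‖v‖ < r₀ / 2)
    {t : ℝ} (ht : t ∈ Ioc (0:ℝ) 1) :
    t * min (creaseRad h Ω (x₀ + v)) (r₀ / 2) ≤ creaseRad h Ω (x₀ + t • v) := by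
  apply le_of_forall_lt
  intro s hs
  rcases lt_or_ge s 0 with hs0 | hs0
  · exact hs0.trans_le (creaseRad_nonneg h Ω _)
  have h1 : s / t < min (creaseRad h Ω (x₀ + v)) (r₀ / 2) := by
    rw [div_lt_iff₀ ht.1, mul_comm]; exact hs
  obtain ⟨r, hr1, hr2⟩ := exists_between h1
  have hr3 : 0 ≤ r := (div_nonneg hs0 ht.1.le).trans hr1.le
  obtain ⟨hb', hc⟩ := creaseRad_spec (hr2.trans_le (min_le_left _ _))
  have hsub : ball (x₀ + v) r ⊆ ball x₀ r₀ := by
    apply ball_subset_ball'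
    rw [dist_eq_norm, add_sub_cancel_left]
    have := hr2.trans_le (min_le_right _ _)
    linarith
  have h2 := hc.scale H0 hform hsub ht
  have hsub2 : ball (x₀ + t • v) (t * r) ⊆ ball x₀ r₀ := by
    apply ball_subset_ball'
    rw [dist_eq_norm, add_sub_cancel_left, norm_smul, Real.norm_of_nonneg ht.1.le]
    have := hr2.trans_le (min_le_right _ _)
    have h3 : t * (r + ‖v‖) ≤ 1 * (r + ‖v‖) := by
      apply mul_le_mul_of_nonneg_right ht.2; positivity
    nlinarith
  have h4 : r ≤ 1 := (hr2.trans_le (min_le_left _ _)).le.trans (creaseRad_le_one h Ω _)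
  have h5 : t * r ≤ creaseRad h Ω (x₀ + t • v) := by
    refine le_creaseRad (mul_nonneg ht.1.le hr3) ?_ (hsub2.trans hb) h2
    nlinarith [ht.1, ht.2]
  have h6 : s < t * r := by rwa [div_lt_iff₀ ht.1, mul_comm] at hr1
  linarith

/-- invariance of the crease radius (truncated) in the directions of the linearity space -/
theorem creaseRad_translate {x₀ : E} {r₀ : ℝ} (hb : ball x₀ r₀ ⊆ Ω)
    (hform : ∀ v : E, ‖v‖ ≤ r₀ → h (x₀ + v) = h x₀ + tcone h x₀ v) {v u : E}
    (hv : ‖v‖ < r₀ / 2) (hvu : ‖v + u‖ < r₀ / 2) (hu : u ∈ linSpace h x₀) :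
    min (creaseRad h Ω (x₀ + v)) (r₀ / 2) ≤ creaseRad h Ω (x₀ + v + u) := by
  apply le_of_forall_lt
  intro s hs
  rcases lt_or_ge s 0 with hs0 | hs0
  · exact hs0.trans_le (creaseRad_nonneg h Ω _)
  obtain ⟨r, hr1, hr2⟩ := exists_between hs
  obtain ⟨hb', hc⟩ := creaseRad_spec (hr2.trans_le (min_le_left _ _))
  have hr4 := hr2.trans_le (min_le_right _ _)
  have hsub : ball (x₀ + v) r ⊆ ball x₀ r₀ := by
    apply ball_subset_ball'
    rw [dist_eq_norm, add_sub_cancel_left]
    linarith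
  have hsub' : ball (x₀ + v + u) r ⊆ ball x₀ r₀ := by
    apply ball_subset_ball'
    rw [dist_eq_norm, add_assoc, add_sub_cancel_left]
    linarith
  have h2 := hc.translate hform hsub hsub' hu
  have h5 : r ≤ creaseRad h Ω (x₀ + v + u) := by
    refine le_creaseRad (hs0.trans hr1.le) ?_ (hsub'.trans hb) h2
    exact (hr2.trans_le (min_le_left _ _)).le.trans (creaseRad_le_one h Ω _)
  linarith

/-- **linear lower bound near codimension two points** -/
theorem creaseRad_codim_two [FiniteDimensional ℝ E] (hΩ : IsOpen Ω) (H : ConicalOn h Ω) {x : E}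
    (hx : x ∈ Ω) (hk : Module.finrank ℝ E ≤ Module.finrank ℝ (linSpace h x) + 2) :
    ∃ δ > 0, ∃ c > 0, ball x δ ⊆ Ω ∧ ∀ v : E, ‖v‖ < δ →
      c * infDist v (linSpace h x : Set E) ≤ creaseRad h Ω (x + v) := by
  have Hx := H.conicalAt hΩ hx
  obtain ⟨r, hr, hb, hform, hmem, hlt, hle⟩ := exists_stratum_nhd hΩ H hx
  obtain ⟨W, hW⟩ := Submodule.exists_isCompl (linSpace h x)
  obtain ⟨P, hPW, hPV⟩ : ∃ P : E →ₗ[ℝ] E, (∀ v, P v ∈ W) ∧ ∀ v, v - P v ∈ linSpace h x := by
    refine ⟨W.projection (linSpace h x) hW.symm, fun v => ?_, fun v => ?_⟩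
    · rw [← Submodule.coe_projectionOnto_apply]; exact Subtype.coe_prop _
    · rw [← Submodule.projectionOnto_apply_eq_zero_iff hW.symm, map_sub,
        Submodule.projectionOnto_projection, sub_self]
  set ρ := r / 4 with hρ
  have hρ0 : 0 < ρ := by positivity
  let K : Set E := {w | w ∈ W ∧ ‖w‖ = ρ}
  have hK : IsCompact K := by
    have h1 : K = (W : Set E) ∩ sphere 0 ρ := by
      ext w; simp [K]
    rw [h1]
    exact (isCompact_sphere _ _).inter_left (Submodule.closed_of_finiteDimensional W)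
  have hKnot : ∀ w ∈ K, w ∉ linSpace h x := by
    rintro w ⟨hwW, hwn⟩ hwV
    have : w ∈ linSpace h x ⊓ W := ⟨hwV, hwW⟩
    rw [hW.inf_eq_bot, Submodule.mem_bot] at this
    rw [this, norm_zero] at hwn
    exact hρ0.ne hwn
  -- lower bound on `K`
  obtain ⟨c₀, hc₀, hc₀K⟩ : ∃ c₀ > 0, ∀ w ∈ K, c₀ ≤ creaseRad h Ω (x + w) := by
    by_cases hKe : K.Nonempty
    · have hcont : Continuous (fun w : E => creaseRad h Ω (x + w)) :=
        creaseRad_lipschitz.continuous.comp (by fun_prop)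
      obtain ⟨w₀, hw₀, hmin⟩ := hK.exists_isMinOn hKe hcont.continuousOn
      refine ⟨creaseRad h Ω (x + w₀), ?_, fun w hw => hmin hw⟩
      have hwr : ‖w₀‖ < r := by rw [hw₀.2, hρ]; linarith
      apply creaseRad_pos hΩ H (hb (by
        rw [mem_ball, dist_eq_norm, add_sub_cancel_left]; exact hwr))
      have := hlt w₀ hwr (hKnot w₀ hw₀)
      omega
    · exact ⟨1, one_pos, fun w hw => absurd ⟨w, hw⟩ hKe⟩
  have hproj : Continuous P := LinearMap.continuous_of_finiteDimensional _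
  have hproj0 : ∀ᶠ v : E in 𝓝 0, ‖P v‖ < ρ := by
    have hc : Continuous (fun v : E => ‖P v‖) := by fun_prop
    exact (hc.continuousAt (x := (0:E))).eventually_lt_const
      (show ‖P 0‖ < ρ by rw [map_zero, norm_zero]; exact hρ0)
  obtain ⟨δ₁, hδ₁, hb₁⟩ := Metric.eventually_nhds_iff_ball.1 hproj0
  have hm0 : 0 < min c₀ (r / 2) := lt_min hc₀ (by linarith)
  refine ⟨min δ₁ ρ, lt_min hδ₁ hρ0, min c₀ (r / 2) / ρ, by positivity, ?_, ?_⟩
  · refine (ball_subset_ball ?_).trans hb
    exact (min_le_right _ _).trans (by rw [hρ]; linarith)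
  intro v hv
  set w : E := P v with hw
  have hwW : w ∈ W := hPW v
  have hu : v - w ∈ linSpace h x := hPV v
  have hwlt : ‖w‖ < ρ := hb₁ v (by
    rw [mem_ball_zero_iff]; exact hv.trans_le (min_le_left _ _))
  have hvρ : ‖v‖ < ρ := hv.trans_le (min_le_right _ _)
  have hinf : infDist v (linSpace h x : Set E) ≤ ‖w‖ := by
    have := infDist_le_dist_of_mem (x := v) (show v - w ∈ (linSpace h x : Set E) from hu)
    rwa [dist_eq_norm, sub_sub_cancel] at this
  by_cases hw0 : w = 0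
  · rw [hw0, norm_zero] at hinf
    have h0 : infDist v (linSpace h x : Set E) = 0 := le_antisymm hinf infDist_nonneg
    rw [h0, mul_zero]
    exact creaseRad_nonneg _ _ _
  have hwn : 0 < ‖w‖ := norm_pos_iff.2 hw0
  set w' := (ρ / ‖w‖) • w with hw'
  have hw'K : w' ∈ K := by
    refine ⟨W.smul_mem _ hwW, ?_⟩
    rw [hw', norm_smul, Real.norm_of_nonneg (by positivity), div_mul_cancel₀ _ hwn.ne']
  have hww' : w = (‖w‖ / ρ) • w' := by
    rw [hw', smul_smul, div_mul_div_comm, mul_comm ρ, div_self (by positivity), one_smul]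
  have hIoc : ‖w‖ / ρ ∈ Ioc (0:ℝ) 1 := ⟨by positivity, by
    rw [div_le_one hρ0]; exact hwlt.le⟩
  have e1 : ‖w‖ / ρ * min (creaseRad h Ω (x + w')) (r / 2) ≤ creaseRad h Ω (x + w) := by
    have := creaseRad_scale Hx hb hform (v := w') (by rw [hw'K.2, hρ]; linarith) hIoc
    rwa [← hww'] at this
  have e2 : ‖w‖ / ρ * min c₀ (r / 2) ≤ creaseRad h Ω (x + w) := by
    refine le_trans ?_ e1
    gcongr
    exact hc₀K w' hw'K
  have e3 : min (creaseRad h Ω (x + w)) (r / 2) ≤ creaseRad h Ω (x + v) := by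
    have := creaseRad_translate hb hform (v := w) (u := v - w)
      (by rw [hρ] at hwlt; linarith) (by
        rw [add_sub_cancel]
        rw [hρ] at hvρ; linarith) hu
    rwa [add_assoc, add_sub_cancel] at this
  have e4 : ‖w‖ / ρ * min c₀ (r / 2) ≤ r / 2 := by
    calc ‖w‖ / ρ * min c₀ (r / 2) ≤ 1 * (r / 2) := by
          gcongr
          · exact hIoc.2
          · exact min_le_right _ _
      _ = r / 2 := one_mul _
  calc min c₀ (r / 2) / ρ * infDist v (linSpace h x : Set E)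
      ≤ min c₀ (r / 2) / ρ * ‖w‖ := by gcongr
    _ = ‖w‖ / ρ * min c₀ (r / 2) := by ring
    _ ≤ min (creaseRad h Ω (x + w)) (r / 2) := le_min e2 e4
    _ ≤ creaseRad h Ω (x + v) := e3

end creaseRad

end P073
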