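import Vale.Agent.P073.ConicalBody

/-!
# P073: tangent cone map, linearity space and strata of a conical map
-/

open Set Metric Topology Filter

namespace P073

variable {E F G : Type*} [NormedAddCommGroup E] [NormedSpace ℝ E]
  [NormedAddCommGroup F] [NormedSpace ℝ F] [NormedAddCommGroup G] [NormedSpace ℝ G]

/-- `h` is conical at the interior point `x` (no set) -/
def ConicalAt (h : E → F) (x : E) : Prop :=
  ∃ r > 0, ∀ v : E, ‖v‖ ≤ r → ∀ t ∈ Icc (0:ℝ) 1, h (x + t • v) = h x + t • (h (x + v) - h x)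

theorem conicalAt_iff {h : E → F} {x : E} : ConicalAt h x ↔ ConicalWithinAt h univ x := by
  constructor
  · rintro ⟨r, hr, H⟩
    exact ⟨r, hr, fun v hv _ t ht => ⟨mem_univ _, H v hv t ht⟩⟩
  · rintro ⟨r, hr, H⟩
    exact ⟨r, hr, fun v hv t ht => (H v hv (mem_univ _) t ht).2⟩

theorem ConicalWithinAt.conicalAt {h : E → F} {X : Set E} {x : E} (H : ConicalWithinAt h X x)
    (hX : X ∈ 𝓝 x) : ConicalAt h x := by
  rw [conicalAt_iff]
  refine H.congr_nhds ?_ (Eventually.of_forall fun _ _ => rfl) rfl
  filter_upwards [hX] with y hy; simp [hy]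

theorem ConicalOn.conicalAt {h : E → F} {X : Set E} {x : E} (H : ConicalOn h X)
    (hX : IsOpen X) (hx : x ∈ X) : ConicalAt h x := (H x hx).conicalAt (hX.mem_nhds hx)

/-- the tangent cone map of `h` at `x` -/
noncomputable def tcone (h : E → F) (x v : E) : F :=
  limUnder (𝓝[>] (0:ℝ)) (fun s : ℝ => s⁻¹ • (h (x + s • v) - h x))

theorem tcone_eq_of_eventually {h : E → F} {x v : E} {w : F}
    (H : ∀ᶠ s : ℝ in 𝓝[>] 0, s⁻¹ • (h (x + s • v) - h x) = w) : tcone h x v = w := by
  have : Tendsto (fun s : ℝ => s⁻¹ • (h (x + s • v) - h x)) (𝓝[>] 0) (𝓝 w) :=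
    tendsto_const_nhds.congr' (H.mono fun s hs => hs.symm)
  exact this.limUnder_eq

@[simp] theorem tcone_zero (h : E → F) (x : E) : tcone h x 0 = 0 :=
  tcone_eq_of_eventually (by simp)

/-- main formula: `h (x + v) = h x + tcone h x v` inside the conical radius -/
theorem tcone_formula {h : E → F} {x : E} {r : ℝ} (hr : 0 < r)
    (H : ∀ v : E, ‖v‖ ≤ r → ∀ t ∈ Icc (0:ℝ) 1, h (x + t • v) = h x + t • (h (x + v) - h x))
    {v : E} {s : ℝ} (hs : 0 < s) (hsv : ‖s • v‖ ≤ r) :
    tcone h x v = s⁻¹ • (h (x + s • v) - h x) := by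
  apply tcone_eq_of_eventually
  filter_upwards [Ioc_mem_nhdsGT hs] with t ht
  have h1 : t / s ∈ Icc (0:ℝ) 1 := ⟨(div_pos ht.1 hs).le, (div_le_one hs).2 ht.2⟩
  have h2 := H (s • v) hsv (t / s) h1
  rw [smul_smul, div_mul_cancel₀ _ hs.ne'] at h2
  rw [h2, add_sub_cancel_left, smul_smul]
  congr 1
  field_simp [ht.1.ne']

theorem ConicalAt.exists_tcone {h : E → F} {x : E} (H : ConicalAt h x) :
    ∃ r > 0, ∀ v : E, ‖v‖ ≤ r → h (x + v) = h x + tcone h x v := by
  obtain ⟨r, hr, H⟩ := H
  refine ⟨r, hr, fun v hv => ?_⟩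
  have := tcone_formula hr H (v := v) one_pos (by rwa [one_smul])
  rw [this]; simp

theorem ConicalAt.tcone_smul {h : E → F} {x : E} (H : ConicalAt h x) {c : ℝ} (hc : 0 ≤ c) (v : E) :
    tcone h x (c • v) = c • tcone h x v := by
  rcases eq_or_lt_of_le hc with h0 | h0
  · rw [← h0]; simp
  obtain ⟨r, hr, H⟩ := H
  -- choose s small
  obtain ⟨s, hs, h1⟩ : ∃ s > 0, ‖(s * c) • v‖ ≤ r := by
    refine ⟨r / (c * (‖v‖ + 1)), by positivity, ?_⟩
    rw [norm_smul, Real.norm_of_nonneg (by positivity)]
    have : r / (c * (‖v‖ + 1)) * c * ‖v‖ = r * (‖v‖ / (‖v‖ + 1)) := by field_simp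
    rw [this]
    have h2 : ‖v‖ / (‖v‖ + 1) ≤ 1 := by
      rw [div_le_one (by positivity)]; linarith
    nlinarith
  rw [tcone_formula hr H (v := c • v) hs (by rwa [smul_smul]),
    tcone_formula hr H (v := v) (mul_pos hs h0) h1, smul_smul, smul_smul]
  congr 1
  field_simp

/-- the linearity space of `h` at `x` -/
noncomputable def linSpace (h : E → F) (x : E) : Submodule ℝ E where
  carrier := {v | ∀ (s : ℝ) (u : E), tcone h x (u + s • v) = tcone h x u + s • tcone h x v}
  zero_mem' := by intro s u; simp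
  add_mem' := by
    intro v w hv hw s u
    have h1 : tcone h x (v + w) = tcone h x v + tcone h x w := by
      have := hw 1 v; rwa [one_smul, one_smul] at this
    rw [smul_add, ← add_assoc, hw, hv, h1, smul_add, add_assoc]
  smul_mem' := by
    intro c v hv s u
    have h1 : tcone h x (c • v) = c • tcone h x v := by
      have := hv c 0; simpa using this
    rw [smul_smul, hv, h1, smul_smul]

theorem mem_linSpace {h : E → F} {x v : E} : v ∈ linSpace h x ↔
    ∀ (s : ℝ) (u : E), tcone h x (u + s • v) = tcone h x u + s • tcone h x v := Iff.rfl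

theorem tcone_add_of_mem {h : E → F} {x v : E} (hv : v ∈ linSpace h x) (u : E) :
    tcone h x (u + v) = tcone h x u + tcone h x v := by
  have := hv 1 u; rwa [one_smul, one_smul] at this

theorem tcone_smul_of_mem {h : E → F} {x v : E} (hv : v ∈ linSpace h x) (c : ℝ) :
    tcone h x (c • v) = c • tcone h x v := by
  have := hv c 0; simpa using this

/-- the restriction of the tangent cone map to the linearity space is linear -/
noncomputable def tconeLin (h : E → F) (x : E) : linSpace h x →ₗ[ℝ] F where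
  toFun v := tcone h x v
  map_add' v w := tcone_add_of_mem w.2 v
  map_smul' c v := tcone_smul_of_mem v.2 c

@[simp] theorem tconeLin_apply (h : E → F) (x : E) (v : linSpace h x) :
    tconeLin h x v = tcone h x v := rfl

/-- a convenient criterion for membership in the linearity space -/
theorem ConicalAt.mem_linSpace_of {h : E → F} {x : E} (H : ConicalAt h x) {v : E}
    (hv : ∀ u : E, tcone h x (u + v) = tcone h x u + tcone h x v) : v ∈ linSpace h x := by
  have hneg : ∀ u, tcone h x (u - v) = tcone h x u - tcone h x v := by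
    intro u
    have := hv (u - v)
    rw [sub_add_cancel] at this
    rw [this]; abel
  intro s u
  rcases lt_trichotomy s 0 with hs | hs | hs
  · have h1 : u + s • v = (-s) • ((-s)⁻¹ • u - v) := by
      rw [smul_sub, smul_smul, mul_inv_cancel₀ (neg_pos.2 hs).ne', one_smul, neg_smul, sub_neg_eq_add]
    rw [h1, H.tcone_smul (neg_pos.2 hs).le, hneg, smul_sub, H.tcone_smul
      (inv_pos.2 (neg_pos.2 hs)).le, smul_smul, mul_inv_cancel₀ (neg_pos.2 hs).ne', one_smul,
      neg_smul, sub_neg_eq_add]
  · simp [hs]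
  · have h1 : u + s • v = s • (s⁻¹ • u + v) := by
      rw [smul_add, smul_smul, mul_inv_cancel₀ hs.ne', one_smul]
    rw [h1, H.tcone_smul hs.le, hv, smul_add, H.tcone_smul (inv_pos.2 hs).le, smul_smul,
      mul_inv_cancel₀ hs.ne', one_smul]

/-- the tangent cone at a nearby point in terms of the tangent cone at `x` -/
theorem tcone_add_eventually {h : E → F} {x : E} {r : ℝ}
    (H : ∀ v : E, ‖v‖ ≤ r → h (x + v) = h x + tcone h x v) {v : E} (hv : ‖v‖ < r)
    (Hv : ConicalAt h (x + v)) (w : E) :
    ∀ᶠ t : ℝ in 𝓝[>] 0, tcone h x (v + t • w) = tcone h x v + t • tcone h (x + v) w := by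
  obtain ⟨ρ, hρ, K⟩ := Hv.exists_tcone
  have e1 : ∀ᶠ t : ℝ in 𝓝[>] 0, ‖v + t • w‖ < r := by
    have hc : Continuous (fun t : ℝ => ‖v + t • w‖) := by fun_prop
    exact (hc.continuousAt.eventually_lt_const (by simpa using hv)).filter_mono nhdsWithin_le_nhds
  have e2 : ∀ᶠ t : ℝ in 𝓝[>] 0, ‖t • w‖ < ρ := by
    have hc : Continuous (fun t : ℝ => ‖t • w‖) := by fun_prop
    exact (hc.continuousAt.eventually_lt_const (by simpa using hρ)).filter_mono nhdsWithin_le_nhds
  filter_upwards [e1, e2, self_mem_nhdsWithin] with t h1 h2 ht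
  have a1 := H _ h1.le
  have a2 := K _ h2.le
  rw [← add_assoc, a2, H v hv.le, Hv.tcone_smul (le_of_lt ht)] at a1
  rw [add_assoc, add_right_inj] at a1
  exact a1.symm

theorem eventually_unique {P : ℝ → Prop} (h : ∀ᶠ t : ℝ in 𝓝[>] 0, P t) : ∃ t > 0, P t := by
  obtain ⟨t, ht, hP⟩ := (h.and self_mem_nhdsWithin).exists
  exact ⟨t, hP, ht⟩

section near

variable {h : E → F} {x : E} {r : ℝ}
  (Hx : ConicalAt h x) (H : ∀ v : E, ‖v‖ ≤ r → h (x + v) = h x + tcone h x v)
  {v : E} (hv : ‖v‖ < r) (Hv : ConicalAt h (x + v))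

include Hx H hv Hv

theorem linSpace_le_near : linSpace h x ≤ linSpace h (x + v) := by
  intro w hw s u
  have e1 := tcone_add_eventually H hv Hv (u + s • w)
  have e2 := tcone_add_eventually H hv Hv u
  have e3 := tcone_add_eventually H hv Hv w
  obtain ⟨t, ht, ⟨a1, a2⟩, a3⟩ := eventually_unique ((e1.and e2).and e3)
  have b1 : v + t • (u + s • w) = (v + t • u) + (t * s) • w := by module
  rw [b1, hw, a2] at a1
  rw [hw] at a3
  have a3' : tcone h x w = tcone h (x + v) w := by
    have := add_left_cancel a3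
    exact smul_right_injective F ht.ne' this
  rw [a3'] at a1
  have : t • tcone h (x + v) (u + s • w) = t • (tcone h (x + v) u + s • tcone h (x + v) w) := by
    rw [smul_add, smul_smul]
    have := a1
    rw [add_assoc] at this
    exact (add_left_cancel this).symm
  exact smul_right_injective F ht.ne' this

theorem self_mem_linSpace_near : v ∈ linSpace h (x + v) := by
  -- D (u + s v) = D u + s C v
  have key : ∀ (s : ℝ) (u : E), tcone h (x + v) (u + s • v) =
      tcone h (x + v) u + s • tcone h x v := by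
    intro s u
    have e1 := tcone_add_eventually H hv Hv (u + s • v)
    have e2 : ∀ᶠ t : ℝ in 𝓝[>] 0, tcone h x (v + (t / (1 + t * s)) • u) = tcone h x v +
        (t / (1 + t * s)) • tcone h (x + v) u := by
      have hlim : Tendsto (fun t : ℝ => t / (1 + t * s)) (𝓝[>] 0) (𝓝[>] 0) := by
        apply tendsto_nhdsWithin_of_tendsto_nhds_of_eventually_within
        · have hc : ContinuousAt (fun t : ℝ => t / (1 + t * s)) 0 := by
            apply ContinuousAt.div (by fun_prop) (by fun_prop)
            simp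
          have := hc.tendsto
          simp only [zero_div] at this
          exact this.mono_left nhdsWithin_le_nhds
        · have hpos : ∀ᶠ t : ℝ in 𝓝[>] 0, 0 < 1 + t * s := by
            have hc : Continuous (fun t : ℝ => 1 + t * s) := by fun_prop
            exact (hc.continuousAt.eventually_const_lt (by simp)).filter_mono nhdsWithin_le_nhds
          filter_upwards [hpos, self_mem_nhdsWithin] with t h1 h2
          exact div_pos h2 h1
      exact hlim.eventually (tcone_add_eventually H hv Hv u)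
    have e3 : ∀ᶠ t : ℝ in 𝓝[>] 0, 0 < 1 + t * s := by
      have hc : Continuous (fun t : ℝ => 1 + t * s) := by fun_prop
      exact (hc.continuousAt.eventually_const_lt (by simp)).filter_mono nhdsWithin_le_nhds
    obtain ⟨t, ht, ⟨a1, a2⟩, a3⟩ := eventually_unique ((e1.and e2).and e3)
    have b1 : v + t • (u + s • v) = (1 + t * s) • (v + (t / (1 + t * s)) • u) := by
      rw [smul_add (1 + t * s), smul_smul, mul_div_cancel₀ _ a3.ne']
      module
    rw [b1, Hx.tcone_smul a3.le, a2, smul_add, smul_smul, mul_div_cancel₀ _ a3.ne'] at a1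
    have b2 : t • tcone h (x + v) (u + s • v) = t • (tcone h (x + v) u + s • tcone h x v) := by
      have b3 : tcone h x v + t • tcone h (x + v) (u + s • v) =
        tcone h x v + t • (tcone h (x + v) u + s • tcone h x v) := by
        rw [← a1]; module
      exact add_left_cancel b3
    exact smul_right_injective F ht.ne' b2
  have hDv : tcone h (x + v) v = tcone h x v := by
    have := key 1 0
    simpa using this
  intro s u
  rw [key, hDv]

theorem tcone_near_of_mem (hvV : v ∈ linSpace h x) : tcone h (x + v) = tcone h x := by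
  funext w
  have e1 := tcone_add_eventually H hv Hv w
  obtain ⟨t, ht, a1⟩ := eventually_unique e1
  rw [add_comm v, tcone_add_of_mem hvV, add_comm (tcone h x _), Hx.tcone_smul ht.le] at a1
  exact (smul_right_injective F ht.ne' (add_left_cancel a1)).symm

theorem linSpace_near_of_mem (hvV : v ∈ linSpace h x) : linSpace h (x + v) = linSpace h x := by
  ext w
  rw [mem_linSpace, mem_linSpace, tcone_near_of_mem Hx H hv Hv hvV]

theorem finrank_linSpace_near_lt [FiniteDimensional ℝ E] (hvV : v ∉ linSpace h x) :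
    Module.finrank ℝ (linSpace h x) < Module.finrank ℝ (linSpace h (x + v)) := by
  apply Submodule.finrank_lt_finrank_of_lt
  refine lt_of_le_of_ne (linSpace_le_near Hx H hv Hv) fun he => hvV ?_
  rw [he]; exact self_mem_linSpace_near Hx H hv Hv

end near

/-! ### Strata of a conical map on an open set -/

/-- the `k`-th stratum of `h` in `Ω` -/
def stratum (h : E → F) (Ω : Set E) (k : ℕ) : Set E :=
  {x ∈ Ω | Module.finrank ℝ (linSpace h x) = k}

/-- the local structure theorem around a point of an open set where `h` is conical -/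
theorem exists_stratum_nhd [FiniteDimensional ℝ E] {h : E → F} {Ω : Set E} (hΩ : IsOpen Ω)
    (H : ConicalOn h Ω) {x : E} (hx : x ∈ Ω) :
    ∃ r > 0, ball x r ⊆ Ω ∧ (∀ v : E, ‖v‖ ≤ r → h (x + v) = h x + tcone h x v) ∧
      (∀ v : E, ‖v‖ < r → v ∈ linSpace h x → tcone h (x + v) = tcone h x ∧
        linSpace h (x + v) = linSpace h x) ∧
      (∀ v : E, ‖v‖ < r → v ∉ linSpace h x →
        Module.finrank ℝ (linSpace h x) < Module.finrank ℝ (linSpace h (x + v))) ∧
      (∀ v : E, ‖v‖ < r → linSpace h x ≤ linSpace h (x + v) ∧ v ∈ linSpace h (x + v)) := by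
  have Hx := H.conicalAt hΩ hx
  obtain ⟨r, hr, hrH⟩ := Hx.exists_tcone
  obtain ⟨ρ, hρ, hb⟩ := Metric.isOpen_iff.1 hΩ x hx
  have hH : ∀ v : E, ‖v‖ ≤ min r ρ → h (x + v) = h x + tcone h x v :=
    fun v hv => hrH v (hv.trans (min_le_left _ _))
  have hC : ∀ v : E, ‖v‖ < min r ρ → ConicalAt h (x + v) := by
    intro v hv
    apply H.conicalAt hΩ (hb _)
    rw [mem_ball, dist_eq_norm, add_sub_cancel_left]
    exact hv.trans_le (min_le_right _ _)
  refine ⟨min r ρ, lt_min hr hρ, (ball_subset_ball (min_le_right _ _)).trans hb, hH, ?_, ?_, ?_⟩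
  · intro v hv hvV
    exact ⟨tcone_near_of_mem Hx hH hv (hC v hv) hvV, linSpace_near_of_mem Hx hH hv (hC v hv) hvV⟩
  · intro v hv hvV
    exact finrank_linSpace_near_lt Hx hH hv (hC v hv) hvV
  · intro v hv
    exact ⟨linSpace_le_near Hx hH hv (hC v hv), self_mem_linSpace_near Hx hH hv (hC v hv)⟩

/-- the top stratum: `h` is affine near `x` -/
theorem tcone_isLinear_of_finrank_eq [FiniteDimensional ℝ E] {h : E → F} {x : E}
    (hk : Module.finrank ℝ (linSpace h x) = Module.finrank ℝ E) :
    ∃ L : E →ₗ[ℝ] F, ∀ v, tcone h x v = L v := by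
  have htop : linSpace h x = ⊤ := Submodule.eq_top_of_finrank_eq hk
  have hmem : ∀ v, v ∈ linSpace h x := fun v => htop ▸ Submodule.mem_top
  exact ⟨{ toFun := tcone h x
           map_add' := fun v w => tcone_add_of_mem (hmem w) v
           map_smul' := fun c v => tcone_smul_of_mem (hmem v) c }, fun v => rfl⟩

/-- codimension one: there are a linear map and a direction such that
`tcone h x (u + s n) = L u + s⁺ a - s⁻ b` -/
theorem tcone_codim_one {h : E → F} {x : E} (H : ConicalAt h x)
    {n : E} {u : E} (hu : u ∈ linSpace h x) (s : ℝ) :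
    tcone h x (u + s • n) = tcone h x u + (max s 0) • tcone h x n + (max (-s) 0) • tcone h x (-n) := by
  rw [add_comm u, tcone_add_of_mem hu]
  rcases le_total 0 s with hs | hs
  · rw [max_eq_left hs, max_eq_right (neg_nonpos.2 hs), H.tcone_smul hs]
    simp [add_comm]
  · rw [max_eq_right hs, max_eq_left (neg_nonneg.2 hs)]
    have : s • n = (-s) • (-n) := by simp
    rw [this, H.tcone_smul (neg_nonneg.2 hs)]
    simp [add_comm]

/-- the union of the strata of index `≤ k` is relatively closed -/
theorem isOpen_stratum_gt [FiniteDimensional ℝ E] {h : E → F} {Ω : Set E} (hΩ : IsOpen Ω)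
    (H : ConicalOn h Ω) (k : ℕ) : IsOpen {x ∈ Ω | k < Module.finrank ℝ (linSpace h x)} := by
  rw [Metric.isOpen_iff]
  rintro x ⟨hx, hk⟩
  obtain ⟨r, hr, hb, -, -, -, hle⟩ := exists_stratum_nhd hΩ H hx
  refine ⟨r, hr, fun y hy => ⟨hb hy, ?_⟩⟩
  rw [mem_ball, dist_eq_norm] at hy
  have := (hle (y - x) hy).1
  rw [add_sub_cancel] at this
  exact hk.trans_le (Submodule.finrank_mono this)

/-- the zero stratum is discrete -/
theorem stratum_zero_discrete [FiniteDimensional ℝ E] {h : E → F} {Ω : Set E} (hΩ : IsOpen Ω)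
    (H : ConicalOn h Ω) {x : E} (hx : x ∈ Ω) :
    ∃ r > 0, ∀ y ∈ ball x r, y ≠ x → y ∉ stratum h Ω 0 := by
  obtain ⟨r, hr, hb, -, -, -, hle⟩ := exists_stratum_nhd hΩ H hx
  refine ⟨r, hr, fun y hy hyx hy0 => ?_⟩
  rw [mem_ball, dist_eq_norm] at hy
  have h1 := (hle (y - x) hy).2
  rw [add_sub_cancel] at h1
  have h2 : linSpace h y = ⊥ := Submodule.finrank_eq_zero.1 hy0.2
  rw [h2, Submodule.mem_bot, sub_eq_zero] at h1
  exact hyx h1

/-- along a segment, near each of its points, the other points have the direction of the segment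
in their linearity space -/
theorem segment_linSpace [FiniteDimensional ℝ E] {h : E → F} {Ω : Set E} (hΩ : IsOpen Ω)
    (H : ConicalOn h Ω) {x w : E} (hx : x ∈ Ω) :
    ∃ δ > 0, ∀ t : ℝ, |t| < δ → t ≠ 0 → w ∈ linSpace h (x + t • w) := by
  obtain ⟨r, hr, hb, -, -, -, hle⟩ := exists_stratum_nhd hΩ H hx
  refine ⟨r / (‖w‖ + 1), by positivity, fun t ht ht0 => ?_⟩
  have h1 : ‖t • w‖ < r := by
    rw [norm_smul, Real.norm_eq_abs]
    rw [lt_div_iff₀ (by positivity)] at ht
    have := abs_nonneg t
    nlinarith [norm_nonneg w]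
  have h2 := (hle (t • w) h1).2
  exact (Submodule.smul_mem_iff _ ht0).1 h2

end P073
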