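import Vale.Agent.P073.Sep

/-!
# P073, block SEP: homotopy form of the separation lemma
-/

open Set Topology Metric

namespace Vale.Agent.P073.Sep

variable {n : ℕ}

/-- **Separation lemma** (homotopy form): `H` is a homotopy of `T` from the identity to `H 1` which
avoids `x ∈ X` and `y ∉ X`; then `x` and `y` are not joined in the complement of `H 1 '' T`. -/
theorem sep_homotopy {X T : Set (Fin n → ℝ)} (hXc : IsCompact X) (hTc : IsClosed T) (hTX : T ⊆ X)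
    (hfr : frontier X ⊆ T) {H : ℝ → (Fin n → ℝ) → (Fin n → ℝ)}
    (hH : ContinuousOn (fun z : ℝ × (Fin n → ℝ) => H z.1 z.2) (Icc 0 1 ×ˢ T))
    (hH0 : ∀ t ∈ T, H 0 t = t)
    {x y : Fin n → ℝ} (hx : x ∈ X) (hy : y ∉ X)
    (hxT : ∀ s ∈ Icc (0 : ℝ) 1, ∀ t ∈ T, H s t ≠ x) (hyT : ∀ s ∈ Icc (0 : ℝ) 1, ∀ t ∈ T, H s t ≠ y) :
    ¬ JoinedIn (H 1 '' T)ᶜ x y := by
  intro hj
  have hTcomp : IsCompact T := hXc.of_isClosed_subset hTc hTX
  have h1c : ContinuousOn (H 1) T := by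
    have : ContinuousOn (fun t : Fin n → ℝ => (((1 : ℝ), t) : ℝ × (Fin n → ℝ))) T :=
      (Continuous.prodMk_right _).continuousOn
    exact hH.comp this fun t ht => ⟨⟨zero_le_one, le_rfl⟩, ht⟩
  have e0 : ExtNV X T (fun t => H 0 t - y) :=
    ⟨fun v => v - y, (continuous_id.sub continuous_const).continuousOn,
      fun v hv h => hy (by rwa [← sub_eq_zero.1 h]), fun t ht => by
        show t - y = H 0 t - y
        rw [hH0 t ht]⟩
  have e1 : ExtNV X T (fun t => H 1 t - y) := by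
    refine ExtNV.homotopy (H := fun s t => H s t - y) hTcomp hTX (hH.sub continuousOn_const) ?_ e0
    intro s hs t ht h
    exact hyT s hs t ht (sub_eq_zero.1 h)
  obtain ⟨γ, hγ⟩ := hj.symm
  have e2 : ExtNV X T (fun t => H 1 t - x) := by
    have := ExtNV.homotopy (H := fun s t => H 1 t - γ.extend s) hTcomp hTX ?_ ?_
      (by simpa using e1)
    · simpa using this
    · apply ContinuousOn.sub
      · exact h1c.comp continuous_snd.continuousOn fun z hz => hz.2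
      · exact (γ.continuous_extend.comp continuous_fst).continuousOn
    · intro s hs t ht h0
      have h1 : H 1 t = γ.extend s := sub_eq_zero.1 h0
      have h2 : γ.extend s = γ ⟨s, hs⟩ := Path.extend_apply γ hs
      exact hγ ⟨s, hs⟩ ⟨t, ht, by rw [h1, h2]⟩
  have e3 : ExtNV X T (fun t => t - x) := by
    have hcont : ContinuousOn (fun z : ℝ × (Fin n → ℝ) => H (1 - z.1) z.2 - x) (Icc 0 1 ×ˢ T) := by
      have : ContinuousOn (fun z : ℝ × (Fin n → ℝ) => ((1 - z.1, z.2) : ℝ × (Fin n → ℝ)))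
          (Icc 0 1 ×ˢ T) :=
        ((continuous_const.sub continuous_fst).prodMk continuous_snd).continuousOn
      exact (hH.comp this fun z hz => ⟨⟨by linarith [hz.1.2], by linarith [hz.1.1]⟩, hz.2⟩).sub
        continuousOn_const
    have := ExtNV.homotopy (H := fun s t => H (1 - s) t - x) hTcomp hTX hcont ?_
      (by simpa using e2)
    · obtain ⟨Φ, h1, h2, h3⟩ := this
      refine ⟨Φ, h1, h2, fun t ht => ?_⟩
      rw [h3 t ht]
      show H (1 - 1) t - x = t - x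
      rw [sub_self, hH0 t ht]
    · intro s hs t ht h
      exact hxT (1 - s) ⟨by linarith [hs.2], by linarith [hs.1]⟩ t ht (sub_eq_zero.1 h)
  exact not_extNV_of_mem hXc hfr hx e3

/-- homotopy form, preconnected sets -/
theorem sep_homotopy_preconn {X T : Set (Fin n → ℝ)} (hXc : IsCompact X) (hTc : IsClosed T)
    (hTX : T ⊆ X) (hfr : frontier X ⊆ T) {H : ℝ → (Fin n → ℝ) → (Fin n → ℝ)}
    (hH : ContinuousOn (fun z : ℝ × (Fin n → ℝ) => H z.1 z.2) (Icc 0 1 ×ˢ T))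
    (hH0 : ∀ t ∈ T, H 0 t = t)
    {x y : Fin n → ℝ} (hx : x ∈ X) (hy : y ∉ X)
    (hxT : ∀ s ∈ Icc (0 : ℝ) 1, ∀ t ∈ T, H s t ≠ x) (hyT : ∀ s ∈ Icc (0 : ℝ) 1, ∀ t ∈ T, H s t ≠ y)
    {B : Set (Fin n → ℝ)} (hB : IsPreconnected B) (hBG : Disjoint B (H 1 '' T)) (hxB : x ∈ B) :
    y ∉ B := by
  intro hyB
  have hTcomp : IsCompact T := hXc.of_isClosed_subset hTc hTX
  have h1c : ContinuousOn (H 1) T := by
    have : ContinuousOn (fun t : Fin n → ℝ => (((1 : ℝ), t) : ℝ × (Fin n → ℝ))) T :=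
      (Continuous.prodMk_right _).continuousOn
    exact hH.comp this fun t ht => ⟨⟨zero_le_one, le_rfl⟩, ht⟩
  have hcl : IsClosed (H 1 '' T) := (hTcomp.image_of_continuousOn h1c).isClosed
  exact sep_homotopy hXc hTc hTX hfr hH hH0 hx hy hxT hyT
    (joinedIn_of_preconn hcl.isOpen_compl hB (fun b hb h => (disjoint_left.1 hBG) hb h) hxB hyB)

/-- **Position of a ball**, homotopy form, I. -/
theorem mem_interior_of_homotopy {X T B : Set (Fin n → ℝ)} (hXc : IsCompact X) (hTc : IsClosed T)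
    (hTX : T ⊆ X) (hfr : frontier X ⊆ T) {H : ℝ → (Fin n → ℝ) → (Fin n → ℝ)}
    (hH : ContinuousOn (fun z : ℝ × (Fin n → ℝ) => H z.1 z.2) (Icc 0 1 ×ˢ T))
    (hH0 : ∀ t ∈ T, H 0 t = t)
    (hn : 0 < n) (hBc : IsCompact B) (hBfr : frontier B = H 1 '' T)
    (hBo : IsPreconnected Bᶜ)
    {x : Fin n → ℝ} (hx : x ∈ X) (hxT : ∀ s ∈ Icc (0 : ℝ) 1, ∀ t ∈ T, H s t ≠ x) :
    x ∈ interior B := by
  by_contra hxi
  have hTcomp : IsCompact T := hXc.of_isClosed_subset hTc hTX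
  have h1mem : (1 : ℝ) ∈ Icc (0 : ℝ) 1 := ⟨zero_le_one, le_rfl⟩
  have hxB : x ∉ B := by
    intro hxB
    have : x ∈ frontier B := ⟨subset_closure hxB, hxi⟩
    rw [hBfr] at this
    obtain ⟨t, ht, htx⟩ := this
    exact hxT 1 h1mem t ht htx
  -- a far point
  obtain ⟨R, hR0, hR⟩ : ∃ R : ℝ, 0 < R ∧ X ∪ B ∪
      (fun z : ℝ × (Fin n → ℝ) => H z.1 z.2) '' (Icc 0 1 ×ˢ T) ⊆ ball 0 R := by
    have hb : Bornology.IsBounded (X ∪ B ∪
        (fun z : ℝ × (Fin n → ℝ) => H z.1 z.2) '' (Icc 0 1 ×ˢ T)) :=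
      ((hXc.union hBc).union ((isCompact_Icc.prod hTcomp).image_of_continuousOn hH)).isBounded
    obtain ⟨R, hR⟩ := hb.subset_ball 0
    exact ⟨max R 1, lt_max_of_lt_right one_pos, hR.trans (ball_subset_ball (le_max_left _ _))⟩
  set y : Fin n → ℝ := fun _ => 3 * R with hy
  have : Nonempty (Fin n) := ⟨⟨0, hn⟩⟩
  have hyn : ‖y‖ = 3 * R := by
    rw [hy, pi_norm_const, Real.norm_eq_abs, abs_of_pos (by positivity)]
  have hybig : ∀ v ∈ X ∪ B ∪ (fun z : ℝ × (Fin n → ℝ) => H z.1 z.2) '' (Icc 0 1 ×ˢ T),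
      v ≠ y := by
    intro v hv h
    have := hR hv
    rw [mem_ball_zero_iff, h, hyn] at this
    linarith
  have hyX : y ∉ X := fun h => hybig y (Or.inl (Or.inl h)) rfl
  have hyB : y ∉ B := fun h => hybig y (Or.inl (Or.inr h)) rfl
  have hyT : ∀ s ∈ Icc (0 : ℝ) 1, ∀ t ∈ T, H s t ≠ y := fun s hs t ht =>
    hybig _ (Or.inr ⟨(s, t), ⟨hs, ht⟩, rfl⟩)
  have hGB : H 1 '' T ⊆ B := hBfr ▸ hBc.isClosed.frontier_subset
  have hdisj : Disjoint Bᶜ (H 1 '' T) := disjoint_left.2 fun v hv hvG => hv (hGB hvG)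
  exact sep_homotopy_preconn hXc hTc hTX hfr hH hH0 hx hyX hxT hyT hBo hdisj hxB hyB

/-- **Position of a ball**, homotopy form, II. -/
theorem notMem_of_homotopy {X T B : Set (Fin n → ℝ)} (hXc : IsCompact X) (hTc : IsClosed T)
    (hTX : T ⊆ X) (hfr : frontier X ⊆ T) {H : ℝ → (Fin n → ℝ) → (Fin n → ℝ)}
    (hH : ContinuousOn (fun z : ℝ × (Fin n → ℝ) => H z.1 z.2) (Icc 0 1 ×ˢ T))
    (hH0 : ∀ t ∈ T, H 0 t = t)
    (hn : 0 < n) (hBc : IsCompact B) (hBfr : frontier B = H 1 '' T)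
    (hBo : IsPreconnected Bᶜ) (hBi : IsPreconnected (interior B))
    {x y : Fin n → ℝ} (hx : x ∈ X) (hxT : ∀ s ∈ Icc (0 : ℝ) 1, ∀ t ∈ T, H s t ≠ x)
    (hy : y ∉ X) (hyT : ∀ s ∈ Icc (0 : ℝ) 1, ∀ t ∈ T, H s t ≠ y) : y ∉ B := by
  intro hyB
  have h1mem : (1 : ℝ) ∈ Icc (0 : ℝ) 1 := ⟨zero_le_one, le_rfl⟩
  have hxi : x ∈ interior B := mem_interior_of_homotopy hXc hTc hTX hfr hH hH0 hn hBc hBfr hBo
    hx hxT
  have hyi : y ∈ interior B := by
    by_contra hyi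
    have : y ∈ frontier B := ⟨subset_closure hyB, hyi⟩
    rw [hBfr] at this
    obtain ⟨t, ht, htx⟩ := this
    exact hyT 1 h1mem t ht htx
  have hdisj : Disjoint (interior B) (H 1 '' T) := by
    rw [← hBfr]
    exact disjoint_left.2 fun v hv hvf => hvf.2 hv
  exact sep_homotopy_preconn hXc hTc hTX hfr hH hH0 hx hy hxT hyT hBi hdisj hxi hyi

end Vale.Agent.P073.Sep
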