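import Mathlib.MeasureTheory.Measure.Lebesgue.EqHaar
import Mathlib.LinearAlgebra.AffineSpace.FiniteDimensional
import Mathlib.Analysis.Normed.Module.Convex
import Mathlib.MeasureTheory.Constructions.BorelSpace.Basic

/-!
# P073, block SEP: removing segments does not disconnect

`preconn_diff_segments` : `Ω ⊆ E` open preconnected, `3 ≤ dim E`, `Γ` locally (in `Ω`) contained in a
finite union of segments: `Ω ∖ Γ` is preconnected; `interior_eq_empty` : such a `Γ ⊆ Ω` has empty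
interior.
-/

open Set Topology Metric MeasureTheory

namespace Vale.Agent.P073.Sep

section General

variable {α : Type*} [TopologicalSpace α]

/-- Local criterion for connectedness of `Ω ∖ Γ`. -/
theorem preconn_diff_of_local {Ω Γ : Set α} (hΩ : IsPreconnected Ω)
    (hden : ∀ N : Set α, IsOpen N → N ⊆ Ω → N.Nonempty → (N \ Γ).Nonempty)
    (hloc : ∀ z ∈ Ω, ∃ N : Set α, IsOpen N ∧ z ∈ N ∧ N ⊆ Ω ∧ IsPreconnected (N \ Γ)) :
    IsPreconnected (Ω \ Γ) := by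
  intro A B hA hB hcov hAne hBne
  by_contra hcon
  have hdis : ∀ z, z ∈ Ω → z ∉ Γ → z ∈ A → z ∈ B → False := by
    intro z h1 h2 h3 h4
    exact hcon ⟨z, ⟨h1, h2⟩, h3, h4⟩
  set A' : Set α := ⋃₀ {N | IsOpen N ∧ N ⊆ Ω ∧ N \ Γ ⊆ A} with hA'
  set B' : Set α := ⋃₀ {N | IsOpen N ∧ N ⊆ Ω ∧ N \ Γ ⊆ B} with hB'
  have hA'o : IsOpen A' := isOpen_sUnion fun N hN => hN.1
  have hB'o : IsOpen B' := isOpen_sUnion fun N hN => hN.1
  have key : ∀ z ∈ Ω, ∃ N : Set α, IsOpen N ∧ z ∈ N ∧ N ⊆ Ω ∧ (N \ Γ ⊆ A ∨ N \ Γ ⊆ B) := by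
    intro z hz
    obtain ⟨N, hNo, hzN, hNΩ, hNp⟩ := hloc z hz
    refine ⟨N, hNo, hzN, hNΩ, ?_⟩
    by_contra hno
    push Not at hno
    obtain ⟨a, ha, haB⟩ := not_subset.1 hno.1
    obtain ⟨b, hb, hbA⟩ := not_subset.1 hno.2
    have ha' : a ∈ B := (hcov ⟨hNΩ ha.1, ha.2⟩).resolve_left haB
    have hb' : b ∈ A := (hcov ⟨hNΩ hb.1, hb.2⟩).resolve_right hbA
    obtain ⟨w, hw, hwA, hwB⟩ := hNp A B hA hB (fun v hv => hcov ⟨hNΩ hv.1, hv.2⟩)
      ⟨b, hb, hb'⟩ ⟨a, ha, ha'⟩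
    exact hdis w (hNΩ hw.1) hw.2 hwA hwB
  have hcov' : Ω ⊆ A' ∪ B' := by
    intro z hz
    obtain ⟨N, hNo, hzN, hNΩ, h | h⟩ := key z hz
    · exact Or.inl ⟨N, ⟨hNo, hNΩ, h⟩, hzN⟩
    · exact Or.inr ⟨N, ⟨hNo, hNΩ, h⟩, hzN⟩
  have hAne' : (Ω ∩ A').Nonempty := by
    obtain ⟨a, ⟨haΩ, haΓ⟩, haA⟩ := hAne
    obtain ⟨N, hNo, hzN, hNΩ, h | h⟩ := key a haΩ
    · exact ⟨a, haΩ, N, ⟨hNo, hNΩ, h⟩, hzN⟩
    · exact (hdis a haΩ haΓ haA (h ⟨hzN, haΓ⟩)).elim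
  have hBne' : (Ω ∩ B').Nonempty := by
    obtain ⟨a, ⟨haΩ, haΓ⟩, haA⟩ := hBne
    obtain ⟨N, hNo, hzN, hNΩ, h | h⟩ := key a haΩ
    · exact (hdis a haΩ haΓ (h ⟨hzN, haΓ⟩) haA).elim
    · exact ⟨a, haΩ, N, ⟨hNo, hNΩ, h⟩, hzN⟩
  obtain ⟨z, hzΩ, ⟨N, ⟨hNo, hNΩ, hNA⟩, hzN⟩, ⟨M, ⟨hMo, hMΩ, hMB⟩, hzM⟩⟩ :=
    hΩ A' B' hA'o hB'o hcov' hAne' hBne'
  obtain ⟨w, hw, hwΓ⟩ := hden (N ∩ M) (hNo.inter hMo) (inter_subset_left.trans hNΩ)
    ⟨z, hzN, hzM⟩
  exact hdis w (hNΩ hw.1) hwΓ (hNA ⟨hw.1, hwΓ⟩) (hMB ⟨hw.2, hwΓ⟩)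

end General

variable {E : Type*} [NormedAddCommGroup E] [NormedSpace ℝ E] [FiniteDimensional ℝ E]

omit [FiniteDimensional ℝ E] in
theorem affineSpan_three_ne_top (hd : 3 ≤ Module.finrank ℝ E) (a p q : E) :
    affineSpan ℝ (Set.range ![a, p, q]) ≠ ⊤ := by
  intro h
  have h1 : Module.finrank ℝ (vectorSpan ℝ (Set.range ![a, p, q])) ≤ 2 :=
    finrank_vectorSpan_range_le ℝ _ (by simp)
  have h2 : vectorSpan ℝ (Set.range ![a, p, q]) = ⊤ := by
    rw [← direction_affineSpan, h, AffineSubspace.direction_top]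
  rw [h2, finrank_top] at h1
  omega

omit [FiniteDimensional ℝ E] in
theorem mem_affineSpan_of_meet {a p q c : E} (ha : a ∉ segment ℝ p q)
    (h : (segment ℝ a c ∩ segment ℝ p q).Nonempty) :
    c ∈ affineSpan ℝ (Set.range ![a, p, q]) := by
  obtain ⟨w, hw1, hw2⟩ := h
  rw [segment_eq_image_lineMap] at hw1
  obtain ⟨s, hs, rfl⟩ := hw1
  have hs0 : s ≠ 0 := by
    rintro rfl
    rw [AffineMap.lineMap_apply_zero] at hw2
    exact ha hw2
  have hsub : ∀ i, ![a, p, q] i ∈ affineSpan ℝ (Set.range ![a, p, q]) := fun i =>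
    subset_affineSpan ℝ _ ⟨i, rfl⟩
  have ha' : a ∈ affineSpan ℝ (Set.range ![a, p, q]) := hsub 0
  have hp' : p ∈ affineSpan ℝ (Set.range ![a, p, q]) := hsub 1
  have hq' : q ∈ affineSpan ℝ (Set.range ![a, p, q]) := hsub 2
  have hw3 : AffineMap.lineMap a c s ∈ affineSpan ℝ (Set.range ![a, p, q]) := by
    rw [segment_eq_image_lineMap] at hw2
    obtain ⟨r, -, hr⟩ := hw2
    rw [← hr]
    exact AffineMap.lineMap_mem r hp' hq'
  have : c = AffineMap.lineMap a (AffineMap.lineMap a c s) (s⁻¹) := by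
    simp only [AffineMap.lineMap_apply, vsub_eq_sub, vadd_eq_add, add_sub_cancel_right, smul_smul,
      inv_mul_cancel₀ hs0, one_smul, sub_add_cancel]
  rw [this]
  exact AffineMap.lineMap_mem _ ha' hw3

/-- A nonempty open set is not contained in finitely many proper affine subspaces. -/
theorem exists_notMem_affine {U : Set E} (hU : IsOpen U) (hne : U.Nonempty) {ι : Type*}
    (s : Finset ι) (A : ι → AffineSubspace ℝ E) (hA : ∀ i ∈ s, A i ≠ ⊤) :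
    ∃ c ∈ U, ∀ i ∈ s, c ∉ A i := by
  borelize E
  by_contra hcon
  push Not at hcon
  set μ : Measure E := Measure.addHaar
  have h1 : U ⊆ ⋃ i ∈ s, (A i : Set E) := by
    intro c hc
    obtain ⟨i, hi, hci⟩ := hcon c hc
    exact mem_biUnion hi hci
  have h2 : μ (⋃ i ∈ s, (A i : Set E)) = 0 := by
    refine (measure_biUnion_null_iff (Finset.countable_toSet s)).2 ?_
    intro i hi
    exact Measure.addHaar_affineSubspace μ _ (hA i (by simpa using hi))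
  have h3 : 0 < μ U := hU.measure_pos μ hne
  exact absurd (measure_mono_null h1 h2) h3.ne'

/-- Finitely many segments. -/
def segs (s : Finset (E × E)) : Set E := ⋃ pq ∈ s, segment ℝ pq.1 pq.2

theorem preconn_diff_segs (hd : 3 ≤ Module.finrank ℝ E) {N : Set E} (hN : IsOpen N)
    (hNc : Convex ℝ N) (s : Finset (E × E)) : IsPreconnected (N \ segs s) := by
  apply isPreconnected_of_forall_pair
  intro a ha b hb
  have haS : ∀ pq ∈ s, a ∉ segment ℝ pq.1 pq.2 := fun pq hpq h =>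
    ha.2 (mem_biUnion hpq h)
  have hbS : ∀ pq ∈ s, b ∉ segment ℝ pq.1 pq.2 := fun pq hpq h =>
    hb.2 (mem_biUnion hpq h)
  classical
  obtain ⟨c, hcN, hc⟩ := exists_notMem_affine hN ⟨a, ha.1⟩ (s.disjSum s)
    (fun i : (E × E) ⊕ (E × E) => Sum.elim
      (fun pq => affineSpan ℝ (Set.range ![a, pq.1, pq.2]))
      (fun pq => affineSpan ℝ (Set.range ![b, pq.1, pq.2])) i)
    (by
      rintro (pq | pq) -
      · exact affineSpan_three_ne_top hd _ _ _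
      · exact affineSpan_three_ne_top hd _ _ _)
  refine ⟨segment ℝ a c ∪ segment ℝ b c, ?_, Or.inl (left_mem_segment _ _ _),
    Or.inr (left_mem_segment _ _ _), ?_⟩
  · apply union_subset
    · intro w hw
      refine ⟨hNc.segment_subset ha.1 hcN hw, fun hwS => ?_⟩
      obtain ⟨pq, hpq, hwpq⟩ := mem_iUnion₂.1 hwS
      have := hc (Sum.inl pq) (by simpa using hpq)
      exact this (mem_affineSpan_of_meet (haS pq hpq) ⟨w, hw, hwpq⟩)
    · intro w hw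
      refine ⟨hNc.segment_subset hb.1 hcN hw, fun hwS => ?_⟩
      obtain ⟨pq, hpq, hwpq⟩ := mem_iUnion₂.1 hwS
      have := hc (Sum.inr pq) (by simpa using hpq)
      exact this (mem_affineSpan_of_meet (hbS pq hpq) ⟨w, hw, hwpq⟩)
  · exact (convex_segment a c).isPreconnected.union c (right_mem_segment _ _ _)
      (right_mem_segment _ _ _) (convex_segment b c).isPreconnected

theorem exists_notMem_segs (hd : 3 ≤ Module.finrank ℝ E) {N : Set E} (hN : IsOpen N)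
    (hne : N.Nonempty) (s : Finset (E × E)) : (N \ segs s).Nonempty := by
  obtain ⟨c, hcN, hc⟩ := exists_notMem_affine hN hne s
    (fun pq => affineSpan ℝ (Set.range ![pq.1, pq.1, pq.2]))
    (fun pq _ => affineSpan_three_ne_top hd _ _ _)
  refine ⟨c, hcN, fun h => ?_⟩
  obtain ⟨pq, hpq, hcpq⟩ := mem_iUnion₂.1 h
  refine hc pq hpq ?_
  rw [segment_eq_image_lineMap] at hcpq
  obtain ⟨r, -, hr⟩ := hcpq
  rw [← hr]
  exact AffineMap.lineMap_mem r (subset_affineSpan ℝ _ ⟨1, rfl⟩) (subset_affineSpan ℝ _ ⟨2, rfl⟩)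

/-- `Γ` is, near every point of `Ω`, contained in a finite union of segments. -/
def LocSegs (Ω Γ : Set E) : Prop :=
  ∀ z ∈ Ω, ∃ r : ℝ, 0 < r ∧ ∃ s : Finset (E × E), ball z r ∩ Γ ⊆ segs s

theorem LocSegs.diff_nonempty (hd : 3 ≤ Module.finrank ℝ E) {Ω Γ : Set E} (h : LocSegs Ω Γ)
    {N : Set E} (hN : IsOpen N) (hNΩ : N ⊆ Ω) (hne : N.Nonempty) : (N \ Γ).Nonempty := by
  obtain ⟨z, hz⟩ := hne
  obtain ⟨r, hr, s, hs⟩ := h z (hNΩ hz)
  obtain ⟨c, hc, hcs⟩ := exists_notMem_segs hd (hN.inter isOpen_ball)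
    ⟨z, hz, mem_ball_self hr⟩ s
  exact ⟨c, hc.1, fun hcΓ => hcs (hs ⟨hc.2, hcΓ⟩)⟩

theorem LocSegs.interior_eq_empty (hd : 3 ≤ Module.finrank ℝ E) {Ω Γ : Set E}
    (h : LocSegs Ω Γ) (hΓ : Γ ⊆ Ω) : interior Γ = ∅ := by
  by_contra hne
  obtain ⟨c, hc, hcΓ⟩ := h.diff_nonempty hd isOpen_interior (interior_subset.trans hΓ)
    (nonempty_iff_ne_empty.2 hne)
  exact hcΓ (interior_subset hc)

/-- Removing a locally finite union of segments does not disconnect an open set (dimension at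
least three). -/
theorem LocSegs.preconn_diff (hd : 3 ≤ Module.finrank ℝ E) {Ω Γ : Set E} (hΩo : IsOpen Ω)
    (hΩ : IsPreconnected Ω) (h : LocSegs Ω Γ) : IsPreconnected (Ω \ Γ) := by
  refine preconn_diff_of_local hΩ (fun N hN hNΩ hne => h.diff_nonempty hd hN hNΩ hne) ?_
  intro z hz
  obtain ⟨r, hr, s, hs⟩ := h z hz
  obtain ⟨r', hr', hsub⟩ := Metric.isOpen_iff.1 hΩo z hz
  set ρ := min r r' with hρ
  have hρ0 : 0 < ρ := lt_min hr hr'
  refine ⟨ball z ρ, isOpen_ball, mem_ball_self hρ0,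
    (ball_subset_ball (min_le_right _ _)).trans hsub, ?_⟩
  have h1 : IsPreconnected (ball z ρ \ segs s) := preconn_diff_segs hd isOpen_ball
    (convex_ball z ρ) s
  refine h1.subset_closure ?_ ?_
  · intro w hw
    exact ⟨hw.1, fun hwΓ => hw.2 (hs ⟨ball_subset_ball (min_le_left _ _) hw.1, hwΓ⟩)⟩
  · intro w hw
    rw [_root_.mem_closure_iff]
    intro O hO hwO
    obtain ⟨c, hc, hcs⟩ := exists_notMem_segs hd (hO.inter isOpen_ball)
      (⟨w, hwO, hw.1⟩ : (O ∩ ball z ρ).Nonempty) s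
    exact ⟨c, hc.1, hc.2, hcs⟩

end Vale.Agent.P073.Sep
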